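import Claimed.Agent.R282.S2C.P.It
import Claimed.Agent.R282.S2C.B.Sort
import Claimed.Agent.R282.S2C.B.Stab

/-!
# 2C / BP-V2: potential clusters (candidate times, cf. `(int:candidate-time)` of Sec. 3)

Site: time `τ ∈ (0,T)` (a break or not), position `p` OFF all walls, jump `a → v`, `g` the chamber frame
at `p` (`g p ∈ Cham`), a chain `ChainR (g a) γs (g v)` of length `m`.  Potential `L`, parameter `s`.
* Candidate time of a positive root `γ`: `F_γ(t) = γ·(η t - η τ) + s γ·L` is continuous, strictly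
  increasing on `[0,T]` (`val_sub_reg`), with slope `≥ κ := min_{γ>0, j} γ·θ_j > 0`; so for
  `|s| (max_γ |γ·L|) ≤ κ min(τ, T-τ)` there is a unique zero `T_s γ ∈ [0,T]`, and
  `|T_s γ - τ| ≤ |s| |γ·L| / κ`.   `T_s γ = τ ↔ s γ·L = 0`.          (L-V2a, ~300 lines)
* `T_s` is a `ConvexLabel`: `F_{a+b} = F_a + F_b`; if `T a < T b` then `F_{a+b}(T a) = F_b(T a) < 0` and
  `F_{a+b}(T b) = F_a(T b) > 0`.                                     (L-V2b, ~100 lines)
* `sorted_chain` gives `γs'` of the same length, sorted for `T_s`; frames `h_i = a s_{γ'_1}⋯s_{γ'_i}`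
  (`chainR_frames` for `g a`, multiply by `g⁻¹`); entries `(τ, T_s γ'_i, h_i)`.
  Displacement of one entry: `(h_i - h_{i-1}) w = -(γ'_i·w) h_{i-1} γ'_i`; with `w = η τ - η t_i`,
  `γ'_i·w = s γ'_i·L`, so it equals `s (h_i - h_{i-1}) L`: the sum telescopes to `s (v L - a L)`.
  `LocGe p h_{i-1} h_i`: a chamber frame at the off-wall point `p` is `g` (`reg_unique`), and
  `DownR (g h_{i-1}) γ'_i (g h_i)`.                                   (L-V2c, ~400 lines)
* moving: if `s ≠ 0` and `γ'_i·L ≠ 0` for some `i` then the `i`-th entry has `t_i ≠ τ`, `h_i ≠ h_{i-1}`.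
-/

set_option autoImplicit false

namespace Claimed.Agent.R282

variable {n : ℕ}

/-- lower bound for the slope of a shape -/
theorem c2v2_slope {γ : Vec n} {κ : ℝ} (θ : Shape n) (hκ : ∀ v ∈ θ, κ ≤ dot v γ) {s t : ℝ}
    (hs : 0 ≤ s) (hst : s ≤ t) (ht : t ≤ (θ.length : ℝ)) :
    κ * (t - s) ≤ dot (θ.val t - θ.val s) γ := by
  induction θ generalizing s t with
  | nil =>
    rw [List.length_nil, Nat.cast_zero] at ht
    have : t = s := by linarith
    subst this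
    simp [dot_zero_left]
  | cons v θ ih =>
    rw [List.length_cons, Nat.cast_add, Nat.cast_one] at ht
    have h' : ∀ w ∈ θ, κ ≤ dot w γ := fun w hw => hκ w (List.mem_cons_of_mem _ hw)
    have hv := hκ v (List.mem_cons_self ..)
    rw [Shape.val_cons, Shape.val_cons, add_sub_add_comm, ← sub_smul, dot_add_left, dot_smul_left]
    by_cases ht1 : t ≤ 1
    · rw [c2p_clamp_mid (hs.trans hst) ht1, c2p_clamp_mid hs (hst.trans ht1),
        Shape.val_nonpos θ (t := t - 1) (by linarith), Shape.val_nonpos θ (t := s - 1) (by linarith), sub_self,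
        dot_zero_left, add_zero]
      nlinarith
    · push Not at ht1
      by_cases hs1 : 1 ≤ s
      · rw [c2p_clamp_ge hs1, c2p_clamp_ge ht1.le, sub_self, zero_mul, zero_add]
        have := ih h' (s := s - 1) (t := t - 1) (by linarith) (by linarith) (by linarith)
        linarith
      · push Not at hs1
        rw [c2p_clamp_ge ht1.le, c2p_clamp_mid hs hs1.le, Shape.val_nonpos θ (t := s - 1) (by linarith)]
        have := ih h' (s := 0) (t := t - 1) le_rfl (by linarith) (by linarith)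
        rw [Shape.val_nonpos θ le_rfl] at this
        nlinarith

/-- the candidate time: existence and bound -/
theorem c2v2_zero {γ : Vec n} {κ : ℝ} (θ : Shape n) (hκ : ∀ v ∈ θ, κ ≤ dot v γ) {τ : ℝ}
    (hτ0 : 0 ≤ τ) (hτ1 : τ ≤ (θ.length : ℝ)) {c : ℝ} (hc0 : |c| ≤ κ * τ)
    (hc1 : |c| ≤ κ * ((θ.length : ℝ) - τ)) :
    ∃ t, 0 ≤ t ∧ t ≤ (θ.length : ℝ) ∧ dot (θ.val t - θ.val τ) γ + c = 0 ∧ κ * |t - τ| ≤ |c| := by
  have hcont : Continuous fun t : ℝ => dot (θ.val t - θ.val τ) γ + c :=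
    ((continuous_dot_left γ).comp (θ.val_continuous.sub continuous_const)).add continuous_const
  have hT : (0 : ℝ) ≤ (θ.length : ℝ) := Nat.cast_nonneg _
  have h0 : dot (θ.val 0 - θ.val τ) γ + c ≤ 0 := by
    have h1 := c2v2_slope θ hκ le_rfl hτ0 hτ1
    have h2 : dot (θ.val 0 - θ.val τ) γ = - dot (θ.val τ - θ.val 0) γ := by
      rw [← dot_neg_left, neg_sub]
    have h3 := le_abs_self c
    rw [h2]
    linarith
  have h1 : 0 ≤ dot (θ.val (θ.length : ℝ) - θ.val τ) γ + c := by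
    have h1 := c2v2_slope θ hκ hτ0 hτ1 le_rfl
    have h3 := neg_abs_le c
    linarith
  obtain ⟨t, ht, hzero⟩ := intermediate_value_Icc hT hcont.continuousOn ⟨h0, h1⟩
  simp only at hzero
  refine ⟨t, ht.1, ht.2, hzero, ?_⟩
  rcases le_total τ t with h | h
  · have h2 := c2v2_slope θ hκ hτ0 h ht.2
    rw [abs_of_nonneg (sub_nonneg.2 h)]
    have h3 := neg_abs_le c
    linarith
  · have h2 := c2v2_slope θ hκ ht.1 h hτ1
    have h4 : dot (θ.val t - θ.val τ) γ = - dot (θ.val τ - θ.val t) γ := by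
      rw [← dot_neg_left, neg_sub]
    rw [abs_sub_comm, abs_of_nonneg (sub_nonneg.2 h)]
    have h3 := le_abs_self c
    linarith

namespace RDatum

variable (D : RDatum n)

/-- a uniform lower bound for the slopes -/
theorem c2v2_exists_kappa {θ : Shape n} (hθ : ∀ v ∈ θ, D.Reg v) :
    ∃ κ > 0, ∀ γ, D.Pos γ → ∀ v ∈ θ, κ ≤ dot v γ := by
  classical
  obtain ⟨ε, hε, h⟩ := c2b_exists_eps (D.roots ×ˢ θ.toFinset) (fun q => dot q.2 q.1)
  refine ⟨ε, hε, fun γ hγ v hv => ?_⟩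
  have hpos := hθ v hv γ hγ
  have := h (γ, v) (Finset.mem_product.2 ⟨hγ.1, List.mem_toFinset.2 hv⟩) hpos.ne'
  rwa [abs_of_pos hpos] at this

/-- a system of candidate times -/
structure C2v2Lab (θ : Shape n) (τ κ s : ℝ) (L : Vec n) (T : Vec n → ℝ) : Prop where
  mem : ∀ γ, D.Pos γ → 0 ≤ T γ ∧ T γ ≤ (θ.length : ℝ)
  zero : ∀ γ, D.Pos γ → dot (θ.val (T γ) - θ.val τ) γ + s * dot L γ = 0
  bound : ∀ γ, D.Pos γ → κ * |T γ - τ| ≤ |s * dot L γ|

theorem c2v2_exists_lab {θ : Shape n} {κ : ℝ} (hκ : ∀ γ, D.Pos γ → ∀ v ∈ θ, κ ≤ dot v γ) {τ : ℝ}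
    (hτ0 : 0 ≤ τ) (hτ1 : τ ≤ (θ.length : ℝ)) {s : ℝ} {L : Vec n}
    (h0 : |s| * D.rnorm L ≤ κ * τ) (h1 : |s| * D.rnorm L ≤ κ * ((θ.length : ℝ) - τ)) :
    ∃ T, D.C2v2Lab θ τ κ s L T := by
  have key : ∀ γ, D.Pos γ → ∃ t, 0 ≤ t ∧ t ≤ (θ.length : ℝ) ∧
      dot (θ.val t - θ.val τ) γ + s * dot L γ = 0 ∧ κ * |t - τ| ≤ |s * dot L γ| := by
    intro γ hγ
    have hb : |s * dot L γ| ≤ |s| * D.rnorm L := by
      rw [abs_mul]
      exact mul_le_mul_of_nonneg_left (D.abs_dot_le_rnorm L hγ.1) (abs_nonneg s)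
    exact c2v2_zero θ (hκ γ hγ) hτ0 hτ1 (hb.trans h0) (hb.trans h1)
  choose! T hT using key
  exact ⟨T, fun γ hγ => ⟨(hT γ hγ).1, (hT γ hγ).2.1⟩, fun γ hγ => (hT γ hγ).2.2.1,
    fun γ hγ => (hT γ hγ).2.2.2⟩

/-- the candidate function is strictly increasing -/
theorem c2v2_lt {θ : Shape n} {κ : ℝ} (hκ0 : 0 < κ) {γ : Vec n} (hκ : ∀ v ∈ θ, κ ≤ dot v γ) (τ c : ℝ)
    {t₁ t₂ : ℝ} (h0 : 0 ≤ t₁) (h12 : t₁ < t₂) (h2 : t₂ ≤ (θ.length : ℝ)) :
    dot (θ.val t₁ - θ.val τ) γ + c < dot (θ.val t₂ - θ.val τ) γ + c := by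
  have h := c2v2_slope θ hκ h0 h12.le h2
  have e : dot (θ.val t₂ - θ.val τ) γ - dot (θ.val t₁ - θ.val τ) γ = dot (θ.val t₂ - θ.val t₁) γ := by
    rw [← dot_sub_left, sub_sub_sub_cancel_right]
  have : 0 < κ * (t₂ - t₁) := mul_pos hκ0 (sub_pos.2 h12)
  linarith

theorem c2v2_le {θ : Shape n} {κ : ℝ} (hκ0 : 0 < κ) {γ : Vec n} (hκ : ∀ v ∈ θ, κ ≤ dot v γ) (τ c : ℝ)
    {t₁ t₂ : ℝ} (h0 : 0 ≤ t₁) (h12 : t₁ ≤ t₂) (h2 : t₂ ≤ (θ.length : ℝ)) :
    dot (θ.val t₁ - θ.val τ) γ + c ≤ dot (θ.val t₂ - θ.val τ) γ + c := by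
  rcases h12.lt_or_eq with h | rfl
  · exact (c2v2_lt hκ0 hκ τ c h0 h h2).le
  · exact le_rfl

theorem c2v2_convex {θ : Shape n} {κ : ℝ} (hκ0 : 0 < κ)
    (hκ : ∀ γ, D.Pos γ → ∀ v ∈ θ, κ ≤ dot v γ) {τ s : ℝ} {L : Vec n} {T : Vec n → ℝ}
    (hT : D.C2v2Lab θ τ κ s L T) : D.ConvexLabel T := by
  intro a b ha hb hab
  have hc : D.Pos (a + b) := ⟨hab, by
    rw [dot_add_right]
    exact add_pos ha.2 hb.2⟩
  have za := hT.zero a ha
  have zb := hT.zero b hb
  have zc := hT.zero _ hc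
  obtain ⟨a0, a1⟩ := hT.mem a ha
  obtain ⟨b0, b1⟩ := hT.mem b hb
  obtain ⟨c0, c1⟩ := hT.mem _ hc
  have split : ∀ t, dot (θ.val t - θ.val τ) (a + b) + s * dot L (a + b)
      = (dot (θ.val t - θ.val τ) a + s * dot L a) + (dot (θ.val t - θ.val τ) b + s * dot L b) := by
    intro t
    rw [dot_add_right, dot_add_right]
    ring
  rcases lt_trichotomy (T a) (T b) with h | h | h
  · left
    constructor
    · by_contra hcon
      have h1 := c2v2_le hκ0 (hκ _ hc) τ (s * dot L (a + b)) c0 (not_lt.1 hcon) a1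
      have h2 := c2v2_lt hκ0 (hκ _ hb) τ (s * dot L b) a0 h b1
      rw [split (T a)] at h1
      linarith
    · by_contra hcon
      have h1 := c2v2_le hκ0 (hκ _ hc) τ (s * dot L (a + b)) b0 (not_lt.1 hcon) c1
      have h2 := c2v2_lt hκ0 (hκ _ ha) τ (s * dot L a) a0 h b1
      rw [split (T b)] at h1
      linarith
  · right; right
    have h3 : dot (θ.val (T a) - θ.val τ) (a + b) + s * dot L (a + b) = 0 := by
      rw [split, za, h, zb, add_zero]
    have h4 : T a = T (a + b) := by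
      rcases lt_trichotomy (T a) (T (a + b)) with h5 | h5 | h5
      · have := c2v2_lt hκ0 (hκ _ hc) τ (s * dot L (a + b)) a0 h5 c1
        linarith
      · exact h5
      · have := c2v2_lt hκ0 (hκ _ hc) τ (s * dot L (a + b)) c0 h5 a1
        linarith
    exact ⟨h4, by rw [← h4, h]⟩
  · right; left
    constructor
    · by_contra hcon
      have h1 := c2v2_le hκ0 (hκ _ hc) τ (s * dot L (a + b)) c0 (not_lt.1 hcon) b1
      have h2 := c2v2_lt hκ0 (hκ _ ha) τ (s * dot L a) b0 h a1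
      rw [split (T b)] at h1
      linarith
    · by_contra hcon
      have h1 := c2v2_le hκ0 (hκ _ hc) τ (s * dot L (a + b)) a0 (not_lt.1 hcon) c1
      have h2 := c2v2_lt hκ0 (hκ _ hb) τ (s * dot L b) b0 h a1
      rw [split (T a)] at h1
      linarith

theorem c2v2_chain_pos {u v : Fr n} {l : List (Vec n)} (h : D.ChainR u l v) : ∀ γ ∈ l, D.Pos γ := by
  induction l generalizing u with
  | nil =>
    intro γ hγ
    exact absurd hγ List.not_mem_nil
  | cons γ l ih =>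
    obtain ⟨h', hd, hc⟩ := h
    intro γ' hγ'
    rcases List.mem_cons.1 hγ' with rfl | hγ'
    · exact hd.1
    · exact ih hc γ' hγ'

/-- the cluster built along a chain -/
theorem c2v2_build {θ : Shape n} {τ s : ℝ} {L p : Vec n} {g v : Fr n} (hg : g ∈ D.W)
    (hreg : D.Reg (g p)) (T : Vec n → ℝ) (l : List (Vec n))
    (hz : ∀ γ ∈ l, dot (θ.val (T γ) - θ.val τ) γ + s * dot L γ = 0) :
    ∀ b : Fr n, b ∈ D.W → D.ChainR (g * b) l (g * v) →
    ∃ es : TagL n, es.map (fun e => e.2.1) = l.map T ∧ (∀ e ∈ es, e.1 = τ ∧ e.2.2 ∈ D.W) ∧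
      tagAll (fun b e => D.LocGe p b e.2.2) b es ∧
      ((b :: es.map fun e => e.2.2).getLast (List.cons_ne_nil _ _) = v) ∧
      (∀ x, τ < x → zOf θ b es x = s • (v L - b L)) ∧
      ((∃ γ ∈ l, T γ ≠ τ) → tagAny (fun b e => b ≠ e.2.2 ∧ e.1 ≠ e.2.1) b es) := by
  induction l with
  | nil =>
    intro b _ hch
    have hbv : b = v := mul_left_cancel (show g * b = g * v from hch)
    subst hbv
    refine ⟨[], rfl, fun e he => absurd he List.not_mem_nil, trivial, rfl, fun x _ => ?_, ?_⟩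
    · simp [zOf]
    · rintro ⟨γ, hγ, -⟩
      exact absurd hγ List.not_mem_nil
  | cons γ l ih =>
    intro b hb hch
    obtain ⟨h, hd, hc⟩ := hch
    have hgb : g * b ∈ D.W := D.W.mul_mem hg hb
    have hdown : D.Down (g * b) h := (D.downR_iff hgb).2 ⟨γ, hd⟩
    have hh : h ∈ D.W := D.down_mem hgb hdown
    have hb' : g⁻¹ * h ∈ D.W := D.W.mul_mem (D.W.inv_mem hg) hh
    have e : g * (g⁻¹ * h) = h := mul_inv_cancel_left g h
    obtain ⟨es, h1, h2, h3, h4, h5, h6⟩ :=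
      ih (fun γ' hγ' => hz γ' (List.mem_cons_of_mem _ hγ')) (g⁻¹ * h) hb' (by rw [e]; exact hc)
    have hform : ∀ x, (g⁻¹ * h) x = b x - dot x γ • b γ := by
      intro x
      have e2 : (g⁻¹ * h) x = (g⁻¹ * (g * b)) (reflV γ x) := by
        rw [LinearEquiv.mul_apply, hd.2.2 x, ← LinearEquiv.mul_apply]
      rw [e2, inv_mul_cancel_left, reflV, map_sub, map_smul]
    have hne : b ≠ g⁻¹ * h := by
      intro hcon
      apply D.down_ne hgb hdown
      rw [hcon, e]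
    refine ⟨(τ, T γ, g⁻¹ * h) :: es, ?_, ?_, ⟨?_, h3⟩, ?_, ?_, ?_⟩
    · simp only [List.map_cons, h1]
    · intro e' he'
      rcases List.mem_cons.1 he' with rfl | he'
      · exact ⟨rfl, hb'⟩
      · exact h2 e' he'
    · intro g' hg' hc'
      have hgg : g = g' := D.reg_unique hg hg' hreg hc'
      subst hgg
      simp only
      rw [e]
      exact Relation.ReflTransGen.single hdown
    · simp only [List.map_cons]
      rw [List.getLast_cons (List.cons_ne_nil _ _)]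
      exact h4
    · intro x hx
      have hzγ := hz γ (List.mem_cons_self ..)
      have hw : dot (θ.val τ - θ.val (T γ)) γ = s * dot L γ := by
        have : dot (θ.val τ - θ.val (T γ)) γ = - dot (θ.val (T γ) - θ.val τ) γ := by
          rw [← dot_neg_left, neg_sub]
        rw [this]
        linarith
      simp only [zOf]
      rw [if_pos hx, h5 x hx, hform, hform, hw]
      module
    · rintro ⟨γ', hγ', hT'⟩
      rcases List.mem_cons.1 hγ' with rfl | hγ'
      · exact Or.inl ⟨hne, fun hcon => hT' hcon.symm⟩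
      · exact Or.inr (h6 ⟨γ', hγ', hT'⟩)

/-- (BP-V2) potential cluster at an off-wall site -/
theorem pot_cluster {θ : Shape n} (hθ : ∀ v ∈ θ, D.Reg v) {τ : ℝ} (hτ0 : 0 < τ)
    (hτ1 : τ < (θ.length : ℝ)) {p : Vec n} (hp : D.OffWall p) {a v g : Fr n} (ha : a ∈ D.W)
    (hg : g ∈ D.W) (hgp : D.Cham (g p)) {γs : List (Vec n)} (hch : D.ChainR (g * a) γs (g * v))
    (L : Vec n) :
    ∃ C > 0, ∃ s₀ > 0, ∀ s : ℝ, |s| < s₀ →
      ∃ (es : TagL n) (γs' : List (Vec n)), es.length = γs.length ∧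
        D.ChainR (g * a) γs' (g * v) ∧ γs'.length = γs.length ∧
        (∀ e ∈ es, e.1 = τ ∧ e.2.2 ∈ D.W ∧ 0 ≤ e.2.1 ∧ e.2.1 ≤ (θ.length : ℝ) ∧
          |e.2.1 - τ| ≤ C * |s|) ∧
        es.act.Pairwise (fun p q => p.1 ≤ q.1) ∧
        tagAll (fun b e => D.LocGe p b e.2.2) a es ∧
        ((a :: es.map fun e => e.2.2).getLast (List.cons_ne_nil _ _) = v) ∧
        (∀ x, τ < x → zOf θ a es x = s • (v L - a L)) ∧
        (s ≠ 0 → (∃ γ ∈ γs', dot γ L ≠ 0) →
          tagAny (fun b e => b ≠ e.2.2 ∧ e.1 ≠ e.2.1) a es) := by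
  obtain ⟨κ, hκ0, hκ⟩ := D.c2v2_exists_kappa hθ
  have hM : 0 ≤ D.rnorm L := D.rnorm_nonneg L
  have hreg : D.Reg (g p) := by
    intro β hβ
    refine lt_of_le_of_ne (hgp β hβ) (Ne.symm ?_)
    rw [D.dot_inv hg]
    exact hp _ (D.inv_map_roots hg hβ.1)
  have hmin : 0 < min τ ((θ.length : ℝ) - τ) := lt_min hτ0 (sub_pos.2 hτ1)
  refine ⟨D.rnorm L / κ + 1, by positivity, κ * min τ ((θ.length : ℝ) - τ) / (D.rnorm L + 1),
    by positivity, ?_⟩
  intro s hs
  have hsM : |s| * D.rnorm L ≤ κ * min τ ((θ.length : ℝ) - τ) := by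
    rw [lt_div_iff₀ (by positivity)] at hs
    have : 0 ≤ |s| := abs_nonneg s
    nlinarith
  have h0 : |s| * D.rnorm L ≤ κ * τ :=
    hsM.trans (mul_le_mul_of_nonneg_left (min_le_left _ _) hκ0.le)
  have h1 : |s| * D.rnorm L ≤ κ * ((θ.length : ℝ) - τ) :=
    hsM.trans (mul_le_mul_of_nonneg_left (min_le_right _ _) hκ0.le)
  obtain ⟨T, hT⟩ := D.c2v2_exists_lab hκ hτ0.le hτ1.le h0 h1
  obtain ⟨γs', hch', hlen, hsort⟩ :=
    D.sorted_chain (D.W.mul_mem hg ha) hch (D.c2v2_convex hκ0 hκ hT)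
  have hpos := D.c2v2_chain_pos hch'
  obtain ⟨es, e1, e2, e3, e4, e5, e6⟩ :=
    D.c2v2_build hg hreg T γs' (fun γ hγ => hT.zero γ (hpos γ hγ)) a ha hch'
  have hlen' : es.length = γs'.length := by
    have := congrArg List.length e1
    simpa using this
  refine ⟨es, γs', hlen'.trans hlen, hch', hlen, ?_, ?_, e3, e4, e5, ?_⟩
  · intro e he
    have hmem : e.2.1 ∈ γs'.map T := by
      rw [← e1]
      exact List.mem_map.2 ⟨e, he, rfl⟩
    obtain ⟨γ, hγ, hγe⟩ := List.mem_map.1 hmem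
    have hPγ := hpos γ hγ
    refine ⟨(e2 e he).1, (e2 e he).2, ?_, ?_, ?_⟩
    · rw [← hγe]
      exact (hT.mem γ hPγ).1
    · rw [← hγe]
      exact (hT.mem γ hPγ).2
    · rw [← hγe]
      have hb := hT.bound γ hPγ
      have hb2 : |s * dot L γ| ≤ |s| * D.rnorm L := by
        rw [abs_mul]
        exact mul_le_mul_of_nonneg_left (D.abs_dot_le_rnorm L hPγ.1) (abs_nonneg s)
      have h3 : |T γ - τ| ≤ |s| * D.rnorm L / κ := by
        rw [le_div_iff₀ hκ0]
        linarith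
      have h4 : |s| * D.rnorm L / κ ≤ (D.rnorm L / κ + 1) * |s| := by
        have : 0 ≤ |s| := abs_nonneg s
        have e : |s| * D.rnorm L / κ = D.rnorm L / κ * |s| := by ring
        rw [e]
        nlinarith
      exact h3.trans h4
  · have h2 : (es.map fun e => e.2.1).Pairwise (· ≤ ·) := by
      rw [e1, List.pairwise_map]
      exact hsort
    rw [List.pairwise_map] at h2
    rw [TagL.act, List.pairwise_map]
    exact h2
  · intro hs0 hex
    apply e6
    obtain ⟨γ, hγ, hγL⟩ := hex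
    refine ⟨γ, hγ, fun hcon => ?_⟩
    have hz := hT.zero γ (hpos γ hγ)
    rw [hcon, sub_self, dot_zero_left, zero_add, dot_comm] at hz
    exact (mul_ne_zero hs0 hγL) hz

end RDatum

end Claimed.Agent.R282
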