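import Claimed.Agent.R282.S2C.V.Indep
import Claimed.Agent.R282.S2C.V.Pot

/-!
# 2C / BP-V3: at a generic maximum every jump is ONE reflection without intermediate element, and
no jump sits at a break  (replaces Lemmas "Strict exposure", "Flag orbit polytopes", "Exposed jumps
are covers")

Setting: maximiser in normal form, all sites off the walls, the `δ_j` (non-break sites `j ∈ J`) are
independent (`max_indep`) and span all roots, hence are a basis of `V_ss = span roots`.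
For a site `j₀` (frames `a → v`, `a ≠ v`, chamber frame `g`, chain `γs` of length `m ≥ 1` from
`ge_iff_chainR`), `Δ = v - a` (values in `V_ss`: `chainR` telescoping, each step adds a multiple of a root).
VARIATION(`L`, `c`): site `j₀` is replaced by `pot_cluster … L` at `±s`, the other non-break sites are
shifted by `± s c_j` as in `max_indep`.  `zOf` is `± s (Δ L·[τ_{j₀} < x] + ∑_{j ≠ j₀, τ_j < x} c_j δ_j)`.
It contradicts `no_variation` as soon as  `Δ L + ∑_{j≠j₀} c_j δ_j = 0`  and every chain of length `m` from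
`g a` to `g v` has a label `γ` with `γ·L ≠ 0`.
 (A) `j₀` a break site: take `L` with `Δ L ≠ 0`; `c` exists since the `δ_j`, `j ∈ J`, span `V_ss ∋ Δ L`.
     Every chain has a label not orthogonal to `L` (`chainR_fix`).  So there is NO break site.
 (B) `j₀ ∈ J`, `rank Δ ≥ 2`: `Δ(V) ∩ span{δ_j : j ≠ j₀} ≠ 0` by dimensions (`dim V_ss = |J|`); take `L`
     with `0 ≠ Δ L` in it.  Contradiction as in (A).
 (C) `rank Δ = 1` and `m ≥ 2`: `F = ker Δ` is a hyperplane.  In any chain of length `≥ 2` not all labels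
     are orthogonal to `F` — otherwise all labels are proportional, i.e. equal (positive roots of the
     same length), against `chainR_no_repeat`.  Choose `L ∈ F` outside the finitely many proper
     subspaces `F ∩ γ^⊥` (`γ` root, `F ⊄ γ^⊥`) (`Subspace.biUnion_ne_univ_of_top_notMem` or a direct
     argument).  `Δ L = 0`, `c = 0`.  Contradiction.
 Hence every chain from `g a` to `g v` has length exactly `1`: `Down (g a) (g v)`; an intermediate
 `h` would give a chain of length `≥ 2` (`ge_iff_chainR`, `chainR_append`, nonempty parts as `h ≠` ends).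
 NB: the statement is for every `g` with `g (pos) ∈ Cham`; off the walls it is unique.
Size: ~900 lines; split: VARIATION lemma (500) | linear algebra (A),(B),(C) (300) | conclusion (100).
-/

set_option autoImplicit false

namespace Claimed.Agent.R282.RDatum

variable {n : ℕ} (D : RDatum n)

/-- (L-2C-V3-i) the site variation given by a potential cluster -/
theorem c2v3_site_pot {θ : Shape n} (hθ : ∀ v ∈ θ, D.Reg v) {τ : ℝ} (hτ0 : 0 < τ)
    (hτ1 : τ < (θ.length : ℝ)) {p : Vec n} (hp : D.OffWall p) {a v g : Fr n} (ha : a ∈ D.W)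
    (hg : g ∈ D.W) (hgp : D.Cham (g p)) {γs : List (Vec n)} (hne : γs ≠ [])
    (hch : D.ChainR (g * a) γs (g * v)) (L : Vec n) :
    D.SiteVar θ τ p a v (v L - a L) (∀ γs', D.ChainR (g * a) γs' (g * v) →
      γs'.length = γs.length → ∃ γ ∈ γs', dot γ L ≠ 0) := by
  obtain ⟨C, hC, s₀, hs₀, H⟩ := D.pot_cluster hθ hτ0 hτ1 hp ha hg hgp hch L
  refine ⟨γs.length, C, hC, s₀, hs₀, fun s hs => ?_⟩
  obtain ⟨es, γs', h1, h2, h3, h4, h5, h6, h7, h8, h9⟩ := H s hs
  refine ⟨es, ⟨?_, h1.le, fun e he => (h4 e he).1, fun e he => (h4 e he).2.1,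
    fun e he => (h4 e he).2.2.2.2, h5, h6, ?_, h8⟩, fun hmv hs0 => h9 hs0 (hmv γs' h2 h3)⟩
  · intro h0
    apply hne
    apply List.eq_nil_of_length_eq_zero
    rw [← h1, h0]
    rfl
  · rw [← c2v3_tagLast_eq]
    exact h7

theorem c2v3_chain_diff : ∀ (γs : List (Vec n)) (u w : Fr n), u ∈ D.W → D.ChainR u γs w →
    ∀ L : Vec n, w L - u L ∈ Submodule.span ℝ {x | x ∈ D.roots}
  | [], u, w, _, h, L => by
      have : u = w := h
      rw [this, sub_self]
      exact Submodule.zero_mem _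
  | γ :: γs, u, w, hu, h, L => by
      obtain ⟨k, hd, hc⟩ := h
      have hk := D.c2b7_downR_mem hu hd
      have ih := c2v3_chain_diff γs k w hk hc L
      have h1 : k L - u L = (-(dot L γ)) • u γ := by
        rw [hd.2.2 L, c2b7_apply_refl]
        module
      have h2 : k L - u L ∈ Submodule.span ℝ {x | x ∈ D.roots} := by
        rw [h1]
        exact Submodule.smul_mem _ _ (Submodule.subset_span (D.map_roots u hu γ hd.1.1))
      have h3 : w L - u L = (w L - k L) + (k L - u L) := by abel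
      rw [h3]
      exact Submodule.add_mem _ ih h2

/-- (L-2C-V3-j) the two ends of a chain differ by an element of the span of the roots.
PLAN: first `∀ γs u w, u ∈ W → ChainR u γs w → w L - u L ∈ span roots` by induction on `γs`
(one step `DownR u γ h`: `h L - u L = u (reflV γ L) - u L = -(dot L γ) • u γ`, `u γ ∈ roots` by `map_roots`;
`h ∈ W` via `downR_iff` + `down_mem`).  Then `g (v L - a L) ∈ span roots`; apply `g⁻¹`
(`Submodule.span_induction` or `Submodule.map_span_le`; `inv_map_roots`). ~60 lines. -/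
theorem c2v3_diff_mem {a v g : Fr n} (ha : a ∈ D.W) (hg : g ∈ D.W) {γs : List (Vec n)}
    (hch : D.ChainR (g * a) γs (g * v)) (L : Vec n) :
    v L - a L ∈ Submodule.span ℝ {x | x ∈ D.roots} := by
  have h1 := D.c2v3_chain_diff γs _ _ (D.W.mul_mem hg ha) hch L
  rw [LinearEquiv.mul_apply, LinearEquiv.mul_apply, ← map_sub] at h1
  have h2 : ∀ y ∈ Submodule.span ℝ {x | x ∈ D.roots},
      g⁻¹ y ∈ Submodule.span ℝ {x | x ∈ D.roots} := by
    intro y hy
    induction hy using Submodule.span_induction with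
    | mem x hx => exact Submodule.subset_span (D.inv_map_roots hg hx)
    | zero => rw [map_zero]; exact Submodule.zero_mem _
    | add x y _ _ hx hy => rw [map_add]; exact Submodule.add_mem _ hx hy
    | smul c x _ hx => rw [map_smul]; exact Submodule.smul_mem _ _ hx
  have h3 := h2 _ h1
  rwa [show g⁻¹ (g (v L - a L)) = v L - a L from LinearEquiv.symm_apply_apply g _] at h3

theorem c2v3_chain_pos : ∀ {γs : List (Vec n)} {u v : Fr n}, D.ChainR u γs v →
    ∀ γ ∈ γs, D.Pos γ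
  | [], _, _, _, _, hγ => absurd hγ (List.not_mem_nil)
  | γ₁ :: γs, u, v, h, γ, hγ => by
      obtain ⟨h', h1, h2⟩ := h
      rcases List.mem_cons.1 hγ with rfl | hγ
      · exact h1.1
      · exact c2v3_chain_pos h2 γ hγ

/-- (L-2C-V3-k) two positive roots on one line are equal.
PLAN: `γ = t ν`, `γ' = t' ν`; `norm_two`: `t² (ν·ν) = 2 = t'² (ν·ν)`; `0 < t (ρ·ν)`, `0 < t' (ρ·ν)`;
so `t² = t'²` and `t t' > 0`, hence `t = t'`. ~30 lines (`dot_smul_left/right`, nlinarith). -/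
theorem c2v3_prop_eq {γ γ' ν : Vec n} (hγ : D.Pos γ) (hγ' : D.Pos γ') (h : ∃ t : ℝ, γ = t • ν)
    (h' : ∃ t : ℝ, γ' = t • ν) : γ = γ' := by
  obtain ⟨t, rfl⟩ := h
  obtain ⟨t', rfl⟩ := h'
  have h1 := D.norm_two _ hγ.1
  have h2 := D.norm_two _ hγ'.1
  have h3 := hγ.2
  have h4 := hγ'.2
  rw [dot_smul_left, dot_smul_right] at h1 h2
  rw [dot_smul_right] at h3 h4
  have hN : dot ν ν ≠ 0 := by
    intro h0
    rw [h0] at h1
    norm_num at h1
  have hsum : t + t' ≠ 0 := by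
    intro h0
    have h5 : t' = -t := by linarith
    rw [h5] at h4
    linarith
  have h5 : (t - t') * ((t + t') * dot ν ν) = 0 := by linear_combination h1 - h2
  rcases mul_eq_zero.1 h5 with h | h
  · rw [sub_eq_zero.1 h]
  · exact absurd h (mul_ne_zero hsum hN)

end Claimed.Agent.R282.RDatum

namespace Claimed.Agent.R282

variable {n : ℕ}

/-- a vector not orthogonal to any of finitely many nonzero vectors -/
theorem c2v3_generic0 (R : Finset (Vec n)) :
    ∃ x : Vec n, ∀ γ ∈ R, γ ≠ 0 → dot γ x ≠ 0 := by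
  classical
  induction R using Finset.induction_on with
  | empty => exact ⟨0, fun γ hγ => absurd hγ (Finset.notMem_empty γ)⟩
  | insert b R _ ih =>
    obtain ⟨x, hx⟩ := ih
    by_cases hb : b = 0
    · refine ⟨x, fun γ hγ h0 => ?_⟩
      rcases Finset.mem_insert.1 hγ with rfl | hγ
      · exact absurd hb h0
      · exact hx γ hγ h0
    · have hbb : dot b b ≠ 0 := fun h => hb (dot_self_eq_zero.1 h)
      obtain ⟨ε, hε⟩ := Infinite.exists_notMem_finset
        ((insert b R).image fun γ => - dot γ x / dot γ b)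
      refine ⟨x + ε • b, fun γ hγ h0 hz => ?_⟩
      rw [dot_add_right, dot_smul_right] at hz
      by_cases hγb : dot γ b = 0
      · rw [hγb, mul_zero, add_zero] at hz
        rcases Finset.mem_insert.1 hγ with rfl | hγ'
        · exact hbb hγb
        · exact hx γ hγ' h0 hz
      · apply hε
        refine Finset.mem_image.2 ⟨γ, hγ, ?_⟩
        field_simp
        linarith

/-- (L-2C-V3-l) a generic vector of the hyperplane `ν^⊥`.
PLAN: (G0) for a finite set `R'` of vectors there is `x` with `γ·x ≠ 0` for all `0 ≠ γ ∈ R'`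
(`Finset.induction_on`: given `x` for `R'` and a new `b ≠ 0`, `x + ε b` works for all but finitely many `ε`;
or `Subspace.biUnion_ne_univ_of_top_notMem`).  `ν = 0`: take `L = x` for `R`.  `ν ≠ 0`: apply (G0) to
the vectors `γ~ = (ν·ν) γ - (γ·ν) ν`, put `L = (ν·ν) x - (x·ν) ν`; `ν·L = 0`, `γ·L = γ~·x`; so `γ·L = 0` forces
`γ~ = 0`, i.e. `γ = ((γ·ν)/(ν·ν)) ν`. ~90 lines. -/
theorem c2v3_generic (ν : Vec n) (R : Finset (Vec n)) :
    ∃ L : Vec n, dot ν L = 0 ∧ ∀ γ ∈ R, dot γ L = 0 → ∃ t : ℝ, γ = t • ν := by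
  classical
  by_cases hν : ν = 0
  · obtain ⟨x, hx⟩ := c2v3_generic0 R
    refine ⟨x, by rw [hν, dot_zero_left], fun γ hγ hz => ⟨0, ?_⟩⟩
    rw [zero_smul]
    by_contra h0
    exact hx γ hγ h0 hz
  · have hN : dot ν ν ≠ 0 := fun h => hν (dot_self_eq_zero.1 h)
    obtain ⟨x, hx⟩ := c2v3_generic0 (R.image fun γ => dot ν ν • γ - dot γ ν • ν)
    refine ⟨dot ν ν • x - dot x ν • ν, ?_, fun γ hγ hz => ⟨dot γ ν / dot ν ν, ?_⟩⟩
    · rw [dot_sub_right, dot_smul_right, dot_smul_right, dot_comm x ν]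
      ring
    · have h1 : dot (dot ν ν • γ - dot γ ν • ν) x = 0 := by
        rw [dot_sub_right, dot_smul_right, dot_smul_right] at hz
        rw [dot_sub_left, dot_smul_left, dot_smul_left, dot_comm ν x]
        linarith
      have h2 : dot ν ν • γ - dot γ ν • ν = 0 := by
        by_contra h0
        exact hx _ (Finset.mem_image_of_mem _ hγ) h0 h1
      have h3 : dot ν ν • γ = dot γ ν • ν := sub_eq_zero.1 h2
      rw [div_eq_inv_mul, mul_smul, ← h3, smul_smul, inv_mul_cancel₀ hN, one_smul]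

/-- (L-2C-V3-m) if `(v - a) L ∈ ℝ δ₀ + M` for all `L` and `δ₀ ∉ M`, then `(v - a) L ∈ M` on a
hyperplane `ν^⊥` (or everywhere).
PLAN: `Submodule.exists_le_ker_of_notMem` (or `Submodule.exists_dual_map_eq_bot_of_notMem`) gives a linear form
`φ` with `φ δ₀ ≠ 0`, `M ≤ ker φ`.  `ν i := φ (v (Pi.single i 1) - a (Pi.single i 1))`; then
`dot ν L = φ (v L - a L)` (write `L = ∑ i, L i • Pi.single i 1`, `pi_eq_sum_univ'`/`LinearMap.pi_apply_eq_sum_univ`).
If this is `0`: `v L - a L = t δ₀ + m` (`Submodule.mem_sup`, `Submodule.mem_span_singleton`), `0 = t φ δ₀`, `t = 0`. ~60 lines. -/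
theorem c2v3_functional (M : Submodule ℝ (Vec n)) (δ₀ : Vec n) (hδ : δ₀ ∉ M) (a v : Fr n)
    (h : ∀ L, v L - a L ∈ Submodule.span ℝ {δ₀} ⊔ M) :
    ∃ ν : Vec n, ∀ L, dot ν L = 0 → v L - a L ∈ M := by
  obtain ⟨φ, hφ, hM⟩ := Submodule.exists_le_ker_of_notMem hδ
  set ψ : Vec n →ₗ[ℝ] ℝ := φ ∘ₗ (v.toLinearMap - a.toLinearMap) with hψ
  have hψL : ∀ L, ψ L = φ (v L - a L) := fun L => rfl
  refine ⟨fun i => ψ fun j => if i = j then 1 else 0, fun L hL => ?_⟩
  have h1 : ψ L = 0 := by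
    rw [LinearMap.pi_apply_eq_sum_univ ψ L]
    refine Eq.trans ?_ hL
    unfold dot
    refine Finset.sum_congr rfl fun i _ => ?_
    rw [smul_eq_mul, mul_comm]
  rw [hψL] at h1
  obtain ⟨y, hy, m, hm, hsum⟩ := Submodule.mem_sup.1 (h L)
  obtain ⟨t, rfl⟩ := Submodule.mem_span_singleton.1 hy
  have hm0 : φ m = 0 := hM hm
  rw [← hsum, map_add, map_smul, hm0, add_zero, smul_eq_mul] at h1
  have ht : t = 0 := by
    rcases mul_eq_zero.1 h1 with h | h
    · exact h
    · exact absurd h hφ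
  rw [← hsum, ht, zero_smul, zero_add]
  exact hm

theorem c2v3_span_append (A B : List (Vec n)) :
    Submodule.span ℝ {y | y ∈ A ++ B} =
      Submodule.span ℝ {y | y ∈ A} ⊔ Submodule.span ℝ {y | y ∈ B} := by
  rw [← Submodule.span_union]
  congr 1
  ext y
  simp

end Claimed.Agent.R282

namespace Claimed.Agent.R282.RDatum

variable {n : ℕ} (D : RDatum n)

/-- KEY: potential cluster at one site, shifts at the others -/
theorem c2v3_key {lam xi : Vec n} {θ : Shape n} {u0 : Fr n} {l : List (ℝ × Fr n)}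
    (hθ : ∀ v ∈ θ, D.Reg v) (h : D.IsMaxUnf lam θ xi u0 l)
    {l₁ l₂ : List (ℝ × Fr n)} {τ : ℝ} {v : Fr n} (hl : l = l₁ ++ (τ, v) :: l₂)
    (hoff : D.OffWall (itPos θ ⟨u0, lam⟩ l τ)) {g : Fr n} (hg : g ∈ D.W)
    (hgp : D.Cham (g (itPos θ ⟨u0, lam⟩ l τ))) {γs : List (Vec n)} (hne : γs ≠ [])
    (hch : D.ChainR (g * frLast u0 l₁) γs (g * v)) (L : Vec n)
    (hL : v L - frLast u0 l₁ L ∈
      Submodule.span ℝ {y | y ∈ frDeltas θ u0 l₁ ++ frDeltas θ v l₂}) :
    ∃ γs', D.ChainR (g * frLast u0 l₁) γs' (g * v) ∧ γs'.length = γs.length ∧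
      ∀ γ ∈ γs', dot γ L = 0 := by
  by_contra hcon
  have hmv : ∀ γs', D.ChainR (g * frLast u0 l₁) γs' (g * v) → γs'.length = γs.length →
      ∃ γ ∈ γs', dot γ L ≠ 0 := by
    intro γs' h1 h2
    by_contra h3
    apply hcon
    refine ⟨γs', h1, h2, fun γ hγ => ?_⟩
    by_contra h4
    exact h3 ⟨γ, hγ, h4⟩
  have hf := D.c2v3_facts h
  rw [hl, c2v3_frAll_append] at hf
  rw [← hl] at hf
  obtain ⟨hf1, hf0, hf2⟩ := hf
  have hL' := Submodule.neg_mem _ hL
  rw [c2v3_span_append, Submodule.mem_sup] at hL'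
  obtain ⟨x₁, hx₁, x₂, hx₂, hx⟩ := hL'
  obtain ⟨L₁, e₁, s₁, t₁⟩ := D.c2v3_shift_fam θ (itPos θ ⟨u0, lam⟩ l) l₁ u0 x₁
    (c2v3_frAll_mono (fun _ _ _ hh => hh.1.1) _ _ hf1) hx₁
  obtain ⟨L₂, e₂, s₂, t₂⟩ := D.c2v3_shift_fam θ (itPos θ ⟨u0, lam⟩ l) l₂ v x₂
    (c2v3_frAll_mono (fun _ _ _ hh => hh.1.1) _ _ hf2) hx₂
  have hpot := D.c2v3_site_pot hθ hf0.1.1.2.1 hf0.2.2 hoff hf0.2.1 hg hgp hne hch L
  refine D.c2v3_assembly hθ h (L₁ ++ ((τ, v), (v L - frLast u0 l₁ L, _)) :: L₂) ?_ ?_ ?_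
    ⟨_, List.mem_append_right _ (List.mem_cons_self ..), hmv⟩
  · rw [List.map_append, List.map_cons, e₁, e₂, hl]
  · rw [c2v3_siteAll_append, e₁]
    exact ⟨s₁, hpot, s₂⟩
  · rw [List.map_append, List.map_cons, List.sum_append, List.sum_cons, t₁, t₂]
    have : x₁ + (v L - frLast u0 l₁ L + x₂) = (x₁ + x₂) + (v L - frLast u0 l₁ L) := by abel
    rw [this, hx]
    abel

/-- per site: no break, all chains have length at most one -/
theorem c2v3_site_main {lam xi : Vec n} {θ : Shape n} {u0 : Fr n} {l : List (ℝ × Fr n)}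
    (hθ : ∀ v ∈ θ, D.Reg v) (h : D.IsMaxUnf lam θ xi u0 l)
    (hspan : ∀ β ∈ D.roots, β ∈ Submodule.span ℝ {x | x ∈ frDeltas θ u0 l})
    {l₁ l₂ : List (ℝ × Fr n)} {τ : ℝ} {v : Fr n} (hl : l = l₁ ++ (τ, v) :: l₂)
    (hoff : D.OffWall (itPos θ ⟨u0, lam⟩ l τ)) :
    ¬ IsBreak τ ∧ ∀ g ∈ D.W, D.Cham (g (itPos θ ⟨u0, lam⟩ l τ)) →
      ∀ γs, D.ChainR (g * frLast u0 l₁) γs (g * v) → γs.length ≤ 1 := by
  classical
  have hf := D.c2v3_facts h
  rw [hl, c2v3_frAll_append] at hf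
  rw [← hl] at hf
  obtain ⟨-, hf0, -⟩ := hf
  obtain ⟨⟨⟨hv, hτ0, hloc⟩, hne⟩, ha, hτ1⟩ := hf0
  have hds : frDeltas θ u0 l = frDeltas θ u0 l₁ ++ ((if IsBreak τ then [] else
      [frLast u0 l₁ (slopeAt θ τ) - v (slopeAt θ τ)]) ++ frDeltas θ v l₂) := by
    rw [hl, c2v3_frDeltas_append]
    rfl
  have hle : Submodule.span ℝ {x | x ∈ D.roots} ≤ Submodule.span ℝ {x | x ∈ frDeltas θ u0 l} :=
    Submodule.span_le.2 hspan
  have hnb : ¬ IsBreak τ := by
    intro hb
    obtain ⟨g, hg, hgp⟩ := D.exists_cham (itPos θ ⟨u0, lam⟩ l τ)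
    obtain ⟨γs, hch⟩ := (D.ge_iff_chainR (D.W.mul_mem hg ha)).1 (hloc g hg hgp)
    obtain ⟨L, hL⟩ : ∃ L, v L ≠ frLast u0 l₁ L := by
      by_contra hh
      push Not at hh
      exact hne (LinearEquiv.ext fun x => (hh x).symm)
    have hγne : γs ≠ [] := by
      rintro rfl
      exact hne (mul_left_cancel (show g * frLast u0 l₁ = g * v from hch))
    have hmem : v L - frLast u0 l₁ L ∈
        Submodule.span ℝ {y | y ∈ frDeltas θ u0 l₁ ++ frDeltas θ v l₂} := by
      have h1 := hle (D.c2v3_diff_mem ha hg hch L)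
      rwa [hds, if_pos hb, List.nil_append] at h1
    obtain ⟨γs', c1, -, c3⟩ := D.c2v3_key hθ h hl hoff hg hgp hγne hch L hmem
    have h2 := D.chainR_fix c1 L c3
    rw [LinearEquiv.mul_apply, LinearEquiv.mul_apply] at h2
    exact hL (g.injective h2).symm
  refine ⟨hnb, fun g hg hgp γs hch => ?_⟩
  by_contra hlen
  have hlen2 : 2 ≤ γs.length := by omega
  have hγne : γs ≠ [] := by
    rintro rfl
    simp at hlen2
  have hind := D.max_indep hθ h
  rw [c2v3_itDeltas_eq, hds, if_neg hnb] at hind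
  have hδ := c2v3_indepL_mid _ _ _ hind
  have hset : {y | y ∈ frDeltas θ u0 l} =
      {frLast u0 l₁ (slopeAt θ τ) - v (slopeAt θ τ)} ∪
        {y | y ∈ frDeltas θ u0 l₁ ++ frDeltas θ v l₂} := by
    rw [hds, if_neg hnb]
    ext y
    simp only [List.mem_append, List.mem_singleton, Set.mem_ofPred_eq, Set.mem_union,
      Set.mem_singleton_iff]
    tauto
  obtain ⟨ν, hν⟩ := c2v3_functional _ _ hδ (frLast u0 l₁) v (fun L => by
    have h1 := hle (D.c2v3_diff_mem ha hg hch L)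
    rwa [hset, Submodule.span_union] at h1)
  obtain ⟨L, hL0, hLR⟩ := c2v3_generic ν D.roots
  obtain ⟨γs', c1, c2, c3⟩ := D.c2v3_key hθ h hl hoff hg hgp hγne hch L (hν L hL0)
  have hrep := D.chainR_no_repeat (D.W.mul_mem hg ha) c1
  have hpos := D.c2v3_chain_pos c1
  match γs', c2, c3, hrep, hpos with
  | [], c2, _, _, _ => simp at c2; omega
  | [_], c2, _, _, _ => simp at c2; omega
  | γ₁ :: γ₂ :: rest, _, c3, hrep, hpos =>
    have m1 : γ₁ ∈ γ₁ :: γ₂ :: rest := List.mem_cons_self ..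
    have m2 : γ₂ ∈ γ₁ :: γ₂ :: rest := List.mem_cons_of_mem _ (List.mem_cons_self ..)
    have hne12 : γ₁ ≠ γ₂ := by
      rw [List.isChain_cons_cons] at hrep
      exact hrep.1
    exact hne12 (D.c2v3_prop_eq (hpos _ m1) (hpos _ m2) (hLR _ (hpos _ m1).1 (c3 _ m1))
      (hLR _ (hpos _ m2).1 (c3 _ m2)))

/-- (L-2C-V3-n) chains of length at most one: a cover.
PLAN: `ge_iff_chainR` gives a chain `γs`; `[]` is impossible (`g a = g v`, `mul_left_cancel`); so `γs = [γ]`,
`ChainR u [γ] w = ∃ h, DownR u γ h ∧ h = w`, `downR_iff`.  Intermediate `h`: chains `l₁`, `l₂` (`ge_mem`),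
`chainR_append` has length `≤ 1`, so `l₁ = []` (`h = g a`) or `l₂ = []` (`h = g v`). ~40 lines. -/
theorem c2v3_cover_of_len {a v g : Fr n} (ha : a ∈ D.W) (hg : g ∈ D.W) (hne : a ≠ v)
    (hge : D.Ge (g * a) (g * v))
    (hlen : ∀ γs, D.ChainR (g * a) γs (g * v) → γs.length ≤ 1) :
    D.Down (g * a) (g * v) ∧
      ∀ h, D.Ge (g * a) h → D.Ge h (g * v) → h = g * a ∨ h = g * v := by
  have hga := D.W.mul_mem hg ha
  obtain ⟨γs, hch⟩ := (D.ge_iff_chainR hga).1 hge
  have hl := hlen γs hch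
  constructor
  · match γs, hch, hl with
    | [], hch, _ => exact absurd (mul_left_cancel (show g * a = g * v from hch)) hne
    | [γ], hch, _ =>
      obtain ⟨k, hd, hk⟩ := hch
      have hk' : k = g * v := hk
      rw [hk'] at hd
      exact (D.downR_iff hga).2 ⟨γ, hd⟩
    | _ :: _ :: _, _, hl => simp at hl
  · intro h h1 h2
    have hh := D.ge_mem hga h1
    obtain ⟨l₁, c1⟩ := (D.ge_iff_chainR hga).1 h1
    obtain ⟨l₂, c2⟩ := (D.ge_iff_chainR hh).1 h2
    have h3 := hlen _ (D.chainR_append c1 c2)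
    rw [List.length_append] at h3
    cases l₁ with
    | nil => exact Or.inl (show g * a = h from c1).symm
    | cons x l₁ =>
      cases l₂ with
      | nil => exact Or.inr c2
      | cons y l₂ =>
        simp only [List.length_cons] at h3
        omega

/-- (V3) potential variation + sorted chains -/
theorem max_cover {lam xi : Vec n} {θ : Shape n} {u0 : Fr n} {l : List (ℝ × Fr n)}
    (hθ : ∀ v ∈ θ, D.Reg v) (h : D.IsMaxUnf lam θ xi u0 l)
    (hoff : itAll θ (fun S t _ => D.OffWall (S.pos θ t)) ⟨u0, lam⟩ l)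
    (hspan : ∀ β ∈ D.roots, β ∈ Submodule.span ℝ {x | x ∈ itDeltas θ ⟨u0, lam⟩ l}) :
    D.IsCoverIt θ ⟨u0, lam⟩ l := by
  have hsort : l.Pairwise (fun p q => p.1 ≤ q.1) := h.adm.sorted
  have hpos := itAll_pos θ ⟨u0, lam⟩ l hsort
  -- off the walls, in terms of the path
  have hoff' : frAll (fun _ t _ => D.OffWall (itPos θ ⟨u0, lam⟩ l t)) u0 l := by
    apply c2v3_frAll_of_itAll θ l ⟨u0, lam⟩
    refine itAll_mono θ ?_ _ _ (itAll_and θ _ _ hoff hpos)
    rintro S t v ⟨h1, h2⟩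
    rwa [← h2]
  rw [c2v3_itDeltas_eq] at hspan
  have hf := D.c2v3_facts h
  have hmain : frAll (fun a t v => ¬ IsBreak t ∧ ∀ g ∈ D.W, D.Cham (g (itPos θ ⟨u0, lam⟩ l t)) →
      D.Down (g * a) (g * v) ∧
        ∀ h, D.Ge (g * a) h → D.Ge h (g * v) → h = g * a ∨ h = g * v) u0 l := by
    apply c2v3_frAll_of_split
    rintro l₁ ⟨τ, v⟩ l₂ hl
    have hf' := hf
    have ho' := hoff'
    rw [hl, c2v3_frAll_append] at hf' ho'
    rw [← hl] at hf' ho'
    obtain ⟨-, hf0, -⟩ := hf'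
    obtain ⟨-, ho0, -⟩ := ho'
    obtain ⟨hnb, hlen⟩ := D.c2v3_site_main hθ h hspan hl ho0
    refine ⟨hnb, fun g hg hgp => ?_⟩
    exact D.c2v3_cover_of_len hf0.2.1 hg hf0.1.2 (hf0.1.1.2.2 g hg hgp) (hlen g hg hgp)
  refine itAll_mono θ ?_ _ _ (itAll_and θ _ _ (c2v3_itAll_of_frAll θ l ⟨u0, lam⟩ hmain) hpos)
  rintro S t v ⟨⟨h1, h2⟩, h3⟩
  refine ⟨h1, fun g hg hgp => h2 g hg ?_⟩
  rwa [← h3]

end Claimed.Agent.R282.RDatum
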