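import Claimed.Agent.R282.S2C.V.Site

/-!
# 2C / L-V1: Lemma "Area variation": the velocity differences at the non-break jumps of a maximiser
are linearly independent

PLAN.  Suppose not: `¬ IndepL (itDeltas …)` gives coefficients (`Fintype.not_linearIndependent_iff`),
i.e. a function `c` on the sites, `c = 0` at break sites, not all zero, `∑_j c_j δ_j = 0`,
`δ_j = (a_{j-1} - a_j) d_j`, `d_j = slopeAt θ τ_j`.
For small `s > 0` put `fp = [(τ_j, τ_j + s c_j, a_j)]`, `fm = [(τ_j, τ_j - s c_j, a_j)]`.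
* `home = l`; `act` sorted: the `τ_j` are strictly increasing (`IsNF.strict`), finitely many gaps.
* `LocGe (y₀ τ_j) a_{j-1} a_j` is `IsAdm.adm` + `itAll_pos`.
* for `s |c_j| <` distance of `τ_j` to the integers, `η τ_j - η (τ_j ± s c_j) = ∓ s c_j d_j`
  (`Shape.val_sub_piece`), so the `j`-th term of `zOf` is `± s c_j δ_j`: `zOf fm = - zOf fp`, and
  `zOf fp T = s ∑ c_j δ_j = 0`.
* some `c_j ≠ 0`, `a_j ≠ a_{j-1}` (`IsNF.nonzero`): the variation moves.
Apply `no_variation` with `m = l.length`, `s` so small that `s |c_j| ≤ δ`.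
Technical advice: define the tagged lists by recursion on `l` together with the list of coefficients
(`List.zipWith`), and prove the `zOf` formula by induction with a general state.
Size: ~450 lines.
-/

set_option autoImplicit false

namespace Claimed.Agent.R282.RDatum

variable {n : ℕ} (D : RDatum n)

/-- (V1) Lemma "Area variation" -/
theorem max_indep {lam xi : Vec n} {θ : Shape n} {u0 : Fr n} {l : List (ℝ × Fr n)}
    (hθ : ∀ v ∈ θ, D.Reg v) (h : D.IsMaxUnf lam θ xi u0 l) :
    IndepL (itDeltas θ ⟨u0, lam⟩ l) := by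
  by_contra hcon
  rw [c2v3_itDeltas_eq] at hcon
  obtain ⟨L, hL, hs, hsum, hmv⟩ := D.c2v3_dep_fam θ (itPos θ ⟨u0, lam⟩ l) l u0
    (c2v3_frAll_mono (fun _ _ _ hh => hh.1) u0 l (D.c2v3_facts h)) hcon
  exact D.c2v3_assembly hθ h L hL hs hsum hmv

end Claimed.Agent.R282.RDatum
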