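import Claimed.Agent.R282.S2C.V.Window

/-!
# 2C / BP-V0: the variation principle (replaces first and second variation of the area)

A variation is a TAGGED list `fs` of entries `(σ, t, h)`: the jump to the frame `h` has home time `σ`
(a site of the maximiser) and actual time `t`.  `fs.home` describes the old path, `fs.act` the new one.
`itPos_tag`:  `y_t(x) = y_σ(x) + z(x) + ∑_i (h_i - h_{i-1}) D_i(x)`, `D_i(x)` dominant, `= 0` unless `x`
lies between `σ_i` and `t_i`.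

* `window_ineq` (L-V0a, ~200 lines): let `q = y_σ(x) + z(x)`, `g ∈ W` with `g q ∈ Cham`.
  `phi q = ρ·(g q) = (g⁻¹ρ)·q` (`phi_eq`, `dot_inv`), `phi (y_t x) ≥ (g⁻¹ρ)·y_t(x)` (`phi_ge`), and
  `(g⁻¹ρ)·((h_i - h_{i-1}) D_i) = ρ·((g h_i) D_i) - ρ·((g h_{i-1}) D_i) ≥ 0` by `ge_dot_le`
  (`d = D_i(x)`, dominant by `val_sub_cham`; `f = ρ`).  Induction over `fs` on `tagRest`.
* `window_strict` (L-V0b, ~150 lines): same, one term is `> 0` by `ge_dot_lt` (`val_sub_reg`).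
* `no_variation` (L-V0c, ~500 lines).  Let `ε` = min over the sites `τ` of `l` of the `ε` of
  `cham_near (y₀ τ)`, `Λ = (θ.map rnorm).sum`, and `δ` with `(4 m + 1) Λ δ < ε`, also `δ <` the distance
  of the sites to `0`, `T`.  For `VarOK … δ fs`, an entry `(σ,t,h)` and `x` between `σ` and `t`:
  `rnorm (y₀ x + z x - y₀ σ) ≤ Λ δ + 2 m Λ δ < ε` and
  `rnorm (y_t t - y₀ σ) ≤ rnorm(y_t t - y₀ t) + Λ δ ≤ 4 m Λ δ + Λ δ < ε`
  (`rnorm_itPos_sub_le`, `rnorm_zOf_le`, `rnorm_tagRest_le`, `itPos_tag`).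
  So by `cham_near` every chamber frame at these points is a chamber frame at `y₀ σ`, and `LocGe` applies:
  (i) `fs.act` is `IsAdm` (`itAll_pos`), (ii) hypothesis of `window_ineq`.
  End point: `z(T) = 0`, `tagRest(T) = 0` (`t_i ≤ T`), so `y_t(T) = y₀(T) ∈ W xi`.
  Maximality: `area(fp.act) ≤ A`, `area(fm.act) ≤ A`; `two_sided_gain` with `z = zOf fp`
  (`zOf fm = - zOf fp`) gives `2 A < area(fp.act) + area(fm.act)`.  Contradiction.
-/

set_option autoImplicit false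

namespace Claimed.Agent.R282.RDatum

variable {n : ℕ} (D : RDatum n)

theorem c2v_cham_near_list (L : List (Vec n)) : ∃ ε > 0, ∀ p ∈ L, ∀ q : Vec n,
    D.rnorm (q - p) < ε → ∀ g ∈ D.W, D.Cham (g q) → D.Cham (g p) := by
  induction L with
  | nil => exact ⟨1, one_pos, fun p hp => absurd hp (List.not_mem_nil)⟩
  | cons a L ih =>
    obtain ⟨ε1, h1, ih⟩ := ih
    obtain ⟨ε2, h2, ha⟩ := D.cham_near a
    refine ⟨min ε1 ε2, lt_min h1 h2, fun p hp q hq g hg hc => ?_⟩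
    rcases List.mem_cons.1 hp with rfl | hp
    · exact ha q (lt_of_lt_of_le hq (min_le_right _ _)) g hg hc
    · exact ih p hp q (lt_of_lt_of_le hq (min_le_left _ _)) g hg hc

theorem c2v_itAll_act (θ : Shape n) {Q : Fr n → ℝ × ℝ × Fr n → Prop}
    {P' P : ASt n → ℝ → Fr n → Prop} :
    ∀ (fs : TagL n) (S : ASt n), tagAll Q S.fr fs → itAll θ P' S fs.act →
      (∀ (S : ASt n) e, e ∈ fs → Q S.fr e → P' S e.2.1 e.2.2 → P S e.2.1 e.2.2) →
      itAll θ P S fs.act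
  | [], _, _, _, _ => trivial
  | e :: fs, S, hQ, hP', h =>
    ⟨h S e (List.mem_cons_self ..) hQ.1 hP'.1,
      c2v_itAll_act θ fs (S.jump θ e.2.1 e.2.2) hQ.2 hP'.2
        fun S e' he' => h S e' (List.mem_cons_of_mem _ he')⟩

theorem c2v_tagRest_end (θ : Shape n) (x : ℝ) :
    ∀ (a : Fr n) (fs : TagL n), (∀ e ∈ fs, e.1 < x ∧ e.2.1 ≤ x) → tagRest θ a fs x = 0
  | _, [], _ => rfl
  | a, e :: fs, h => by
    obtain ⟨h1, h2⟩ := h e (List.mem_cons_self ..)
    rw [tagRest, if_pos h1, min_eq_right h2, sub_self, map_zero, map_zero, sub_zero, zero_add]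
    exact c2v_tagRest_end θ x e.2.2 fs fun e' he' => h e' (List.mem_cons_of_mem _ he')

theorem c2v_exists_mid :
    ∀ (a : Fr n) (fs : TagL n), tagAny (fun a e => a ≠ e.2.2 ∧ e.1 ≠ e.2.1) a fs →
      ∃ e ∈ fs, tagAny (fun a e' => a ≠ e'.2.2 ∧ min e'.1 e'.2.1 < (e.1 + e.2.1) / 2 ∧
        (e.1 + e.2.1) / 2 < max e'.1 e'.2.1) a fs
  | _, [], h => h.elim
  | a, e :: fs, h => by
    rcases h with h | h
    · refine ⟨e, List.mem_cons_self .., Or.inl ⟨h.1, ?_, ?_⟩⟩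
      · rcases lt_or_gt_of_ne h.2 with h2 | h2
        · rw [min_eq_left h2.le]
          linarith
        · rw [min_eq_right h2.le]
          linarith
      · rcases lt_or_gt_of_ne h.2 with h2 | h2
        · rw [max_eq_right h2.le]
          linarith
        · rw [max_eq_left h2.le]
          linarith
    · obtain ⟨e', he', h'⟩ := c2v_exists_mid e.2.2 fs h
      exact ⟨e', List.mem_cons_of_mem _ he', Or.inr h'⟩

/-- everything about one side of the variation -/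
theorem c2v_one_side {lam xi : Vec n} {θ : Shape n} {u0 : Fr n} {l : List (ℝ × Fr n)}
    (h : D.IsMaxUnf lam θ xi u0 l) {m : ℕ} {ε δ : ℝ}
    (hε : ∀ p ∈ l.map (fun p => itPos θ ⟨u0, lam⟩ l p.1), ∀ q : Vec n,
      D.rnorm (q - p) < ε → ∀ g ∈ D.W, D.Cham (g q) → D.Cham (g p))
    (hδ0 : 0 < δ) (hδ : (4 * m + 1) * ((θ.map D.rnorm).sum * δ) < ε) {fs : TagL n}
    (hlen : fs.length ≤ m) (hV : D.VarOK lam θ u0 l δ fs) (hz : zOf θ u0 fs θ.length = 0) :
    D.area θ ⟨u0, lam⟩ fs.act ≤ D.area θ ⟨u0, lam⟩ l ∧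
    (∀ x, tagAll (fun a e => (min e.1 e.2.1 < x ∧ x ≤ max e.1 e.2.1) → ∀ g ∈ D.W,
      D.Cham (g (itPos θ ⟨u0, lam⟩ fs.home x + zOf θ u0 fs x)) → D.Ge (g * a) (g * e.2.2))
      u0 fs) := by
  have hIt : D.IsIt θ u0 l := h.adm.toIsIt
  have hΛ := D.c2p_Lam_nonneg θ
  have hΛδ : 0 ≤ (θ.map D.rnorm).sum * δ := mul_nonneg hΛ hδ0.le
  have hm : (fs.length : ℝ) ≤ m := Nat.cast_le.2 hlen
  have bz : ∀ x, D.rnorm (zOf θ u0 fs x) ≤ 2 * m * ((θ.map D.rnorm).sum * δ) := fun x =>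
    (D.rnorm_zOf_le θ hIt.u0_mem fs hV.fr_mem δ hV.close x).trans
      (mul_le_mul_of_nonneg_right (by linarith) hΛδ)
  have bR : ∀ x, D.rnorm (tagRest θ u0 fs x) ≤ 2 * m * ((θ.map D.rnorm).sum * δ) := fun x =>
    (D.rnorm_tagRest_le θ hIt.u0_mem fs hV.fr_mem δ hV.close x).trans
      (mul_le_mul_of_nonneg_right (by linarith) hΛδ)
  have bL : ∀ s t, |t - s| ≤ δ → D.rnorm (itPos θ ⟨u0, lam⟩ l t - itPos θ ⟨u0, lam⟩ l s) ≤
      (θ.map D.rnorm).sum * δ := fun s t hst =>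
    (D.rnorm_itPos_sub_le θ lam hIt s t).trans (mul_le_mul_of_nonneg_left hst hΛ)
  have hsite : ∀ e ∈ fs, itPos θ ⟨u0, lam⟩ l e.1 ∈ l.map (fun p => itPos θ ⟨u0, lam⟩ l p.1) := by
    intro e he
    obtain ⟨p, hp, hpe⟩ := List.mem_map.1 (hV.home_site e he)
    exact List.mem_map.2 ⟨p, hp, by rw [hpe]⟩
  have htag : ∀ x, itPos θ ⟨u0, lam⟩ fs.act x =
      itPos θ ⟨u0, lam⟩ l x + zOf θ u0 fs x + tagRest θ u0 fs x := fun x => by
    rw [itPos_tag θ u0 lam fs hV.home_sorted hV.act_sorted x, hV.home_path]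
  have hloc' := tagAll_and u0 fs hV.loc (tagAll_of_forall (P := fun _ e => e ∈ fs) u0 fs
    fun _ e he => he)
  refine ⟨?_, ?_⟩
  · -- admissibility and end point, then maximality
    apply h.max u0 fs.act
    · refine ⟨⟨hIt.u0_mem, ?_, ?_, hV.act_sorted⟩, ?_⟩
      · intro p hp
        obtain ⟨e, he, rfl⟩ := List.mem_map.1 hp
        exact hV.fr_mem e he
      · intro p hp
        obtain ⟨e, he, rfl⟩ := List.mem_map.1 hp
        exact hV.act_mem e he
      · refine c2v_itAll_act θ fs ⟨u0, lam⟩ hV.loc (itAll_pos θ ⟨u0, lam⟩ fs.act hV.act_sorted) ?_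
        intro S e he hQ hP g hg hc
        apply hQ g hg
        apply hε _ (hsite e he) _ _ g hg hc
        rw [hP, htag]
        have e1 : itPos θ ⟨u0, lam⟩ l e.2.1 + zOf θ u0 fs e.2.1 + tagRest θ u0 fs e.2.1 -
            itPos θ ⟨u0, lam⟩ l e.1 = (itPos θ ⟨u0, lam⟩ l e.2.1 - itPos θ ⟨u0, lam⟩ l e.1) +
              (zOf θ u0 fs e.2.1 + tagRest θ u0 fs e.2.1) := by abel
        rw [e1]
        have c1 := D.rnorm_add_le (itPos θ ⟨u0, lam⟩ l e.2.1 - itPos θ ⟨u0, lam⟩ l e.1)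
          (zOf θ u0 fs e.2.1 + tagRest θ u0 fs e.2.1)
        have c2 := D.rnorm_add_le (zOf θ u0 fs e.2.1) (tagRest θ u0 fs e.2.1)
        have c3 := bL e.1 e.2.1 (hV.close e he)
        have c4 := bz e.2.1
        have c5 := bR e.2.1
        nlinarith
    · obtain ⟨g, hg, he⟩ := h.endp
      refine ⟨g, hg, ?_⟩
      rw [htag, hz, add_zero, c2v_tagRest_end θ _ u0 fs, add_zero, he]
      intro e he
      obtain ⟨p, hp, hpe⟩ := List.mem_map.1 (hV.home_site e he)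
      exact ⟨by rw [← hpe]; exact (h.nf.interior p hp).2, (hV.act_mem e he).2⟩
  · intro x
    refine tagAll_mono ?_ u0 fs hloc'
    rintro a e ⟨hQ, he⟩ hw g hg hc
    apply hQ g hg
    apply hε _ (hsite e he) _ _ g hg hc
    rw [hV.home_path]
    have e1 : itPos θ ⟨u0, lam⟩ l x + zOf θ u0 fs x - itPos θ ⟨u0, lam⟩ l e.1 =
        (itPos θ ⟨u0, lam⟩ l x - itPos θ ⟨u0, lam⟩ l e.1) + zOf θ u0 fs x := by abel
    rw [e1]
    have hx : |x - e.1| ≤ δ := by
      refine le_trans ?_ (hV.close e he)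
      rcases le_total e.1 e.2.1 with h1 | h1
      · rw [min_eq_left h1, max_eq_right h1] at hw
        rw [abs_of_nonneg (by linarith), abs_of_nonneg (by linarith)]
        linarith
      · rw [min_eq_right h1, max_eq_left h1] at hw
        rw [abs_of_nonpos (by linarith), abs_of_nonpos (by linarith)]
        linarith
    have c1 := D.rnorm_add_le (itPos θ ⟨u0, lam⟩ l x - itPos θ ⟨u0, lam⟩ l e.1) (zOf θ u0 fs x)
    have c3 := bL e.1 x hx
    have c4 := bz x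
    have hm0 : (0 : ℝ) ≤ m := Nat.cast_nonneg _
    nlinarith

/-- (L-V0c) VARIATION PRINCIPLE: a maximiser admits no small two-sided variation that moves a
nonzero jump. -/
theorem no_variation {lam xi : Vec n} {θ : Shape n} {u0 : Fr n} {l : List (ℝ × Fr n)}
    (hθ : ∀ v ∈ θ, D.Reg v) (h : D.IsMaxUnf lam θ xi u0 l) (m : ℕ) :
    ∃ δ > 0, ∀ fp fm : TagL n, fp.length ≤ m → fm.length ≤ m →
      D.VarOK lam θ u0 l δ fp → D.VarOK lam θ u0 l δ fm →
      (∀ x, zOf θ u0 fm x = - zOf θ u0 fp x) → zOf θ u0 fp θ.length = 0 →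
      tagAny (fun a e => a ≠ e.2.2 ∧ e.1 ≠ e.2.1) u0 fp → False := by
  obtain ⟨ε, hε0, hε⟩ := D.c2v_cham_near_list (l.map (fun p => itPos θ ⟨u0, lam⟩ l p.1))
  have hΛ := D.c2p_Lam_nonneg θ
  have hm0 : (0 : ℝ) ≤ m := Nat.cast_nonneg _
  have hK : 0 < (4 * (m : ℝ) + 1) * (θ.map D.rnorm).sum + 1 := by positivity
  refine ⟨ε / ((4 * (m : ℝ) + 1) * (θ.map D.rnorm).sum + 1), div_pos hε0 hK, ?_⟩
  intro fp fm hlp hlm hVp hVm hzm hzp hmove
  set δ := ε / ((4 * (m : ℝ) + 1) * (θ.map D.rnorm).sum + 1) with hδdef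
  have hδ0 : 0 < δ := div_pos hε0 hK
  have hδ : (4 * m + 1) * ((θ.map D.rnorm).sum * δ) < ε := by
    have e1 : ((4 * (m : ℝ) + 1) * (θ.map D.rnorm).sum + 1) * δ = ε := by
      rw [hδdef]
      field_simp
    nlinarith
  have hIt : D.IsIt θ u0 l := h.adm.toIsIt
  obtain ⟨ap, wp⟩ := D.c2v_one_side h hε hδ0 hδ hlp hVp hzp
  obtain ⟨am, wm⟩ := D.c2v_one_side h hε hδ0 hδ hlm hVm (by rw [hzm, hzp, neg_zero])
  have hθ' : ∀ v ∈ θ, D.Cham v := fun v hv => (hθ v hv).cham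
  obtain ⟨e, he, hmid⟩ := c2v_exists_mid u0 fp hmove
  have hsite : ∀ e ∈ fp, 0 < e.1 ∧ e.1 < (θ.length : ℝ) := by
    intro e he
    obtain ⟨p, hp, hpe⟩ := List.mem_map.1 (hVp.home_site e he)
    rw [← hpe]
    exact h.nf.interior p hp
  have hgain := D.two_sided_gain (θ.length : ℝ) (itPos θ ⟨u0, lam⟩ l) (itPos θ ⟨u0, lam⟩ fp.act)
    (itPos θ ⟨u0, lam⟩ fm.act) (zOf θ u0 fp) (itPos_continuous θ _ l hIt.sorted)
    (itPos_continuous θ _ _ hVp.act_sorted) (itPos_continuous θ _ _ hVm.act_sorted)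
    (fun x _ _ => by
      have := D.window_ineq hθ' hIt.u0_mem lam fp hVp.fr_mem hVp.home_sorted hVp.act_sorted x (wp x)
      rwa [hVp.home_path] at this)
    (fun x _ _ => by
      have := D.window_ineq hθ' hIt.u0_mem lam fm hVm.fr_mem hVm.home_sorted hVm.act_sorted x (wm x)
      rwa [hVm.home_path, hzm, ← sub_eq_add_neg] at this)
    ⟨(e.1 + e.2.1) / 2, by
        have := (hsite e he).1
        have := (hVp.act_mem e he).1
        linarith, by
        have := (hsite e he).2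
        have := (hVp.act_mem e he).2
        linarith, by
        have := D.window_strict hθ hIt.u0_mem lam fp hVp.fr_mem hVp.home_sorted hVp.act_sorted
          (fun e he => ⟨⟨(hsite e he).1.le, (hsite e he).2.le⟩, hVp.act_mem e he⟩)
          ((e.1 + e.2.1) / 2) (wp _) hmid
        rwa [hVp.home_path] at this⟩
    ((hsite e he).1.trans (hsite e he).2)
  unfold area at ap am
  linarith

end Claimed.Agent.R282.RDatum
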