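import Claimed.Agent.R282.S2C.P.It
import Claimed.Agent.R282.S2C.B.Ge
import Claimed.Agent.R282.S2C.B.Cham

/-!
# 2C / L-V4: a cover itinerary is a basic schedule

PLAN.  For each jump `(S, t, v)` pick `g` with `g (S.pos t) ∈ Cham` (`exists_cham`); `IsCoverIt` gives
`Down (g S.fr) (g v)` with a positive root `β'`; put `β = g⁻¹ β'` (a root).  Then
`v x = reflV β (S.fr x)`; `(S.pos t)·β = (g pos)·β' ≥ 0`; `-β·(S.fr μ) = -β'·(g S.fr μ) ≥ 0`
(`dot_frame_nonpos`, `μ = θ.sum ∈ Cham`).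
* Translate the state machines: `ASt ⟨fr, c⟩ ↔ SwState ⟨fr, c⟩`, `ASt.jump` with `v = s_β fr` equals
  `SwState.stepV`: `c + fr(η t) - s_β fr (η t) = c + (β·fr(η t)) β`.  Induction on `l`.
* End point: `runSwV … .pos θ T = itPos … T` (all times `≤ T`).
* `IndepV`: no site is a break, so `itDeltas` has one entry per jump,
  `δ = fr d - s_β fr d = ((fr d)·β) β`, with `(fr d)·β ≠ 0` (`dot_frame_neg`, `d = slopeAt θ t` regular as
  `0 < t < T`).  `LinearIndependent.units_smul`-type argument (rescale).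
* `NoBlockV`: suppose `a + d = β`, `y·a, y·d > 0`, `(fr μ)·a, (fr μ)·d < 0`.  Then `a' = g a`, `d' = g d` are
  positive (`pos_of_dot_pos`), `(g fr ρ)·a' < 0`, `(g fr ρ)·d' < 0` (`dot_frame_rho_neg` with `μ`), `a·d = -1`
  (from `|β|² = 2`).  `h = s_{a'} g fr`: `Down (g fr) h`; `Down h (s_{d'} h)` [root `d'`:
  `(h ρ)·d' = (g fr ρ)·(d' + a') < 0`]; `Down (s_{d'} h) (s_{a'} s_{d'} h)` [`(s_{d'} h ρ)·a' = (g fr ρ)·d' < 0`];
  `s_{a'} s_{d'} s_{a'} = s_{β'}`.  So `h` is strictly between: contradiction with `IsCoverIt`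
  (`down_ne`, `ge_antisymm`).
Size: ~500 lines.
-/

set_option autoImplicit false

namespace Claimed.Agent.R282.RDatum

variable {n : ℕ} (D : RDatum n)

/-- braid identity `s_a s_d s_a = s_{a+d}` -/
theorem c2v4_braid {a d : Vec n} (haa : dot a a = 2) (had : dot a d = -1)
    (z : Vec n) : reflV a (reflV d (reflV a z)) = reflV (a + d) z := by
  have hda : dot d a = -1 := by rw [dot_comm]; exact had
  simp only [reflV, dot_sub_left, dot_smul_left, dot_add_right, haa, had, hda]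
  module

/-- the analysis of one jump of a cover itinerary -/
theorem c2v4_jump {fr v : Fr n} (hfr : fr ∈ D.W) (y μ : Vec n) (hμ : D.Cham μ)
    (hcov : ∀ g ∈ D.W, D.Cham (g y) → D.Down (g * fr) (g * v) ∧
      ∀ h, D.Ge (g * fr) h → D.Ge h (g * v) → h = g * fr ∨ h = g * v) :
    ∃ β ∈ D.roots, (∀ x, v x = reflV β (fr x)) ∧ 0 ≤ dot y β ∧ dot (fr D.rho) β < 0 ∧
      ∀ a ∈ D.roots, ∀ d ∈ D.roots, a + d = β →
        ¬ (0 < dot y a ∧ 0 < dot y d ∧ dot (fr μ) a < 0 ∧ dot (fr μ) d < 0) := by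
  obtain ⟨g, hg, hgy⟩ := D.exists_cham y
  obtain ⟨⟨β', hβ', hneg, hv⟩, hmid⟩ := hcov g hg hgy
  have hu : g * fr ∈ D.W := D.W.mul_mem hg hfr
  have hgβ : g (g⁻¹ β') = β' := LinearEquiv.apply_symm_apply g β'
  refine ⟨g⁻¹ β', D.inv_map_roots hg hβ'.1, ?_, ?_, ?_, ?_⟩
  · intro x
    have h1 := hv x
    rw [LinearEquiv.mul_apply, LinearEquiv.mul_apply] at h1
    apply g.injective
    rw [h1, reflV, reflV, map_sub, map_smul, hgβ, ← D.dot_inv hg]
  · rw [← D.dot_inv hg]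
    exact hgy β' hβ'
  · rw [← D.dot_inv hg]
    exact hneg
  · intro a ha d hd had hcon
    obtain ⟨g1, g2, g3, g4⟩ := hcon
    have ha' : g a ∈ D.roots := D.map_roots g hg a ha
    have hd' : g d ∈ D.roots := D.map_roots g hg d hd
    have hsum : g a + g d = β' := by rw [← map_add, had, hgβ]
    have hpa : D.Pos (g a) := D.pos_of_dot_pos hgy ha' (by rw [D.isom g hg]; exact g1)
    have hpd : D.Pos (g d) := D.pos_of_dot_pos hgy hd' (by rw [D.isom g hg]; exact g2)
    have hna : dot ((g * fr) D.rho) (g a) < 0 :=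
      D.dot_frame_rho_neg hu ha' hμ (by rw [LinearEquiv.mul_apply, D.isom g hg]; exact g3)
    have hnd : dot ((g * fr) D.rho) (g d) < 0 :=
      D.dot_frame_rho_neg hu hd' hμ (by rw [LinearEquiv.mul_apply, D.isom g hg]; exact g4)
    have haa := D.norm_two _ ha'
    have hdd := D.norm_two _ hd'
    have hpair : dot (g a) (g d) = -1 := by
      have h2 := D.norm_two _ hβ'.1
      rw [← hsum, dot_add_left, dot_add_right, dot_add_right, haa, hdd, dot_comm (g d) (g a)] at h2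
      linarith
    have hpair' : dot (g d) (g a) = -1 := by rw [dot_comm]; exact hpair
    obtain ⟨sa, hsa, hsa'⟩ := D.refl_mem _ ha'
    obtain ⟨sd, hsd, hsd'⟩ := D.refl_mem _ hd'
    have d1 : D.Down (g * fr) (sa * (g * fr)) :=
      ⟨g a, hpa, hna, fun x => by rw [LinearEquiv.mul_apply, hsa']⟩
    have d2 : D.Down (sa * (g * fr)) (sd * (sa * (g * fr))) := by
      refine ⟨g d, hpd, ?_, fun x => by rw [LinearEquiv.mul_apply, hsd']⟩
      rw [LinearEquiv.mul_apply, hsa', dot_reflV, hpair]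
      linarith
    have d3 : D.Down (sd * (sa * (g * fr))) (g * v) := by
      refine ⟨g a, hpa, ?_, fun x => ?_⟩
      · rw [LinearEquiv.mul_apply, hsd', LinearEquiv.mul_apply, hsa', dot_reflV, dot_reflV,
          dot_reflV, hpair, hpair', haa]
        linarith
      · rw [hv x, ← hsum, ← c2v4_braid haa hpair, LinearEquiv.mul_apply sd, hsd',
          LinearEquiv.mul_apply sa, hsa']
    have hm1 : sa * (g * fr) ∈ D.W := D.W.mul_mem hsa hu
    rcases hmid _ (Relation.ReflTransGen.single d1)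
      ((Relation.ReflTransGen.single d2).tail d3) with h | h
    · exact D.down_ne hu d1 h.symm
    · have h3 : D.Ge (sd * (sa * (g * fr))) (sa * (g * fr)) := by
        have h4 : D.Ge (sd * (sa * (g * fr))) (g * v) := Relation.ReflTransGen.single d3
        rwa [← h] at h4
      exact D.down_ne hm1 d2 (D.ge_antisymm hm1 (Relation.ReflTransGen.single d2) h3)

theorem c2v4_slope_reg {θ : Shape n} (hθ : ∀ v ∈ θ, D.Reg v) {t : ℝ} (h0 : 0 < t)
    (h1 : t < (θ.length : ℝ)) : D.Reg (slopeAt θ t) := by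
  unfold slopeAt
  have hlt : ⌊t⌋₊ < θ.length := (Nat.floor_lt h0.le).2 h1
  rw [List.getD_eq_getElem _ _ hlt]
  exact hθ _ (List.getElem_mem hlt)

/-- translation of the state machines, by induction on the itinerary -/
theorem c2v4_main {θ : Shape n} (hθ : ∀ v ∈ θ, D.Reg v) (l : List (ℝ × Fr n)) (fr : Fr n)
    (c : Vec n) (hfr : fr ∈ D.W) (hl : ∀ p ∈ l, p.2 ∈ D.W)
    (hint : ∀ p ∈ l, 0 < p.1 ∧ p.1 < (θ.length : ℝ)) (hcov : D.IsCoverIt θ ⟨fr, c⟩ l) :
    ∃ l' : List (ℝ × Vec n), l'.map Prod.fst = l.map Prod.fst ∧ (∀ p ∈ l', p.2 ∈ D.roots) ∧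
      swAllV θ (fun S t β => 0 ≤ dot (S.pos θ t) β ∧ 0 ≤ - dot β (S.frame θ.sum)) ⟨fr, c⟩ l' ∧
      D.NoBlockV θ ⟨fr, c⟩ l' ∧
      (runSwV θ ⟨fr, c⟩ l').pos θ θ.length = itPos θ ⟨fr, c⟩ l θ.length ∧
      List.Forall₂ (fun δ p => ∃ r : ℝ, r ≠ 0 ∧ δ = r • p.2) (itDeltas θ ⟨fr, c⟩ l) l' := by
  induction l generalizing fr c with
  | nil => exact ⟨[], rfl, by simp, trivial, trivial, rfl, List.Forall₂.nil⟩
  | cons p l ih =>
    obtain ⟨⟨hnb, hc1⟩, hc2⟩ := hcov
    have hμ : D.Cham θ.sum := D.cham_sum fun v hv => (hθ v hv).cham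
    obtain ⟨β, hβ, hv, hy, hneg, hblock⟩ :=
      D.c2v4_jump hfr ((⟨fr, c⟩ : ASt n).pos θ p.1) θ.sum hμ hc1
    have hstep : (⟨fr, c⟩ : SwState n).stepV θ p.1 β =
        ⟨p.2, ((⟨fr, c⟩ : ASt n).jump θ p.1 p.2).c⟩ := by
      simp only [SwState.stepV, ASt.jump, SwState.mk.injEq]
      refine ⟨funext fun x => (hv x).symm, ?_⟩
      rw [hv, reflV, dot_comm β]
      abel
    obtain ⟨l', e1, e2, e3, e4, e5, e6⟩ := ih p.2 _ (hl p (by simp))
      (fun q hq => hl q (by simp [hq])) (fun q hq => hint q (by simp [hq])) hc2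
    refine ⟨(p.1, β) :: l', by simp [e1], ?_, ⟨⟨hy, ?_⟩, ?_⟩, ⟨hblock, ?_⟩, ?_, ?_⟩
    · intro q hq
      rcases List.mem_cons.1 hq with rfl | hq
      · exact hβ
      · exact e2 q hq
    · have := D.dot_frame_nonpos hfr hβ hneg hμ
      rw [dot_comm] at this
      show 0 ≤ - dot β (fr θ.sum)
      linarith
    · show swAllV θ _ ((⟨fr, c⟩ : SwState n).stepV θ p.1 β) l'
      rw [hstep]; exact e3
    · show swAllV θ _ ((⟨fr, c⟩ : SwState n).stepV θ p.1 β) l'
      rw [hstep]; exact e4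
    · show (runSwV θ ((⟨fr, c⟩ : SwState n).stepV θ p.1 β) l').pos θ θ.length = _
      rw [hstep, itPos_cons_gt θ _ p l (hint p (by simp)).2]
      exact e5
    · have hd := D.c2v4_slope_reg hθ (hint p (by simp)).1 (hint p (by simp)).2
      have hlt := D.dot_frame_neg hfr hβ hneg hd
      have hdel : itDeltas θ ⟨fr, c⟩ (p :: l) =
          (fr (slopeAt θ p.1) - p.2 (slopeAt θ p.1)) ::
            itDeltas θ ((⟨fr, c⟩ : ASt n).jump θ p.1 p.2) l := by
        simp only [itDeltas, if_neg hnb, List.singleton_append]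
      rw [hdel]
      refine List.Forall₂.cons ⟨dot (fr (slopeAt θ p.1)) β, hlt.ne, ?_⟩ e6
      rw [hv, reflV]
      abel

/-- rescaling of an independent list -/
theorem c2v4_indep {L : List (Vec n)} {l' : List (ℝ × Vec n)}
    (h : List.Forall₂ (fun δ p => ∃ r : ℝ, r ≠ 0 ∧ δ = r • p.2) L l') (hL : IndepL L) :
    IndepV l' := by
  have hlen : l'.length = L.length := h.length_eq.symm
  have hget : ∀ i : Fin l'.length, ∃ r : ℝ, r ≠ 0 ∧ L.get (Fin.cast hlen i) = r • (l'.get i).2 := by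
    intro i
    exact h.get (hlen ▸ i.2) i.2
  choose r hr0 hr using hget
  unfold IndepL at hL
  unfold IndepV
  have h1 : LinearIndependent ℝ (fun i : Fin l'.length => L.get (Fin.cast hlen i)) :=
    hL.comp _ (Fin.cast_injective hlen)
  have h2 := h1.units_smul (fun i => (Units.mk0 (r i) (hr0 i))⁻¹)
  convert h2 using 1
  funext i
  simp only [Pi.smul_apply', hr i, Units.smul_def, Units.val_inv_eq_inv_val, Units.val_mk0,
    smul_smul, inv_mul_cancel₀ (hr0 i), one_smul]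

/-- (V4) a cover itinerary with independent velocity differences is a basic schedule -/
theorem basic_of_cover {lam xi : Vec n} {θ : Shape n} {u0 : Fr n} {l : List (ℝ × Fr n)}
    (hθ : ∀ v ∈ θ, D.Reg v) (hne : θ ≠ []) (hit : D.IsIt θ u0 l) (hnf : IsNF θ u0 l)
    (hend : ∃ g ∈ D.W, itPos θ ⟨u0, lam⟩ l θ.length = g xi)
    (hcov : D.IsCoverIt θ ⟨u0, lam⟩ l) (hind : IndepL (itDeltas θ ⟨u0, lam⟩ l)) :
    D.HasBasic lam θ xi := by
  have _ := hne
  obtain ⟨l', e1, e2, e3, e4, e5, e6⟩ :=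
    D.c2v4_main hθ l u0 lam hit.u0_mem hit.fr_mem hnf.interior hcov
  obtain ⟨g, hg, hgx⟩ := hend
  refine ⟨u0, l', ⟨hit.u0_mem, e2, ?_, ?_, e3, g, hg, e5.trans hgx⟩, c2v4_indep e6 hind, e4⟩
  · intro p hp
    have h1 : p.1 ∈ l.map Prod.fst := by
      rw [← e1]; exact List.mem_map_of_mem hp
    obtain ⟨q, hq, hq1⟩ := List.mem_map.1 h1
    rw [← hq1]
    exact hit.times_mem q hq
  · have h1 : (l.map Prod.fst).Pairwise (· ≤ ·) := List.pairwise_map.2 hit.sorted
    rw [← e1] at h1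
    exact List.pairwise_map.1 h1

end Claimed.Agent.R282.RDatum
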