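import Claimed.Agent.R282.S2C.V.NoVar

/-!
# 2C / BP-V3, part 1: site-wise variations and their assembly

A *site variation* (`SiteVar`) at a site `(τ, p)` with jump `a → v` is a one-parameter family of
clusters `es(s)`, `|s| < s₀`, of tagged entries with home time `τ`, actual times within `C |s|` of `τ`,
leading from the frame `a` to the frame `v`, locally admissible at `p`, with displacement `s • w`.
`c2v3_assembly`: if every site of a maximiser carries a site variation, the displacements `w` add up to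
`0` and one of the site variations moves a nonzero jump, we contradict `no_variation`.
Both `max_indep` (shifts) and `max_cover` (potential cluster + shifts) are instances.
-/

set_option autoImplicit false

namespace Claimed.Agent.R282

variable {n : ℕ}

/-! ## list calculus -/

/-- last frame of a tagged list -/
def tagLast : Fr n → TagL n → Fr n
  | a, [] => a
  | _, e :: es => tagLast e.2.2 es

/-- last frame of an itinerary -/
def frLast : Fr n → List (ℝ × Fr n) → Fr n
  | a, [] => a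
  | _, p :: l => frLast p.2 l

/-- a property of all jumps `(frame before, time, new frame)` -/
def frAll (P : Fr n → ℝ → Fr n → Prop) : Fr n → List (ℝ × Fr n) → Prop
  | _, [] => True
  | a, p :: l => P a p.1 p.2 ∧ frAll P p.2 l

theorem c2v3_tagLast_eq : ∀ (a : Fr n) (es : TagL n),
    (a :: es.map fun e => e.2.2).getLast (List.cons_ne_nil _ _) = tagLast a es
  | _, [] => rfl
  | a, e :: es => by
      rw [List.map_cons, List.getLast_cons (List.cons_ne_nil _ _)]
      exact c2v3_tagLast_eq e.2.2 es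

theorem c2v3_tagLast_append : ∀ (a : Fr n) (es fs : TagL n),
    tagLast a (es ++ fs) = tagLast (tagLast a es) fs
  | _, [], _ => rfl
  | _, e :: es, fs => c2v3_tagLast_append e.2.2 es fs

theorem c2v3_zOf_append (θ : Shape n) (x : ℝ) : ∀ (a : Fr n) (es fs : TagL n),
    zOf θ a (es ++ fs) x = zOf θ a es x + zOf θ (tagLast a es) fs x
  | _, [], _ => by simp [zOf, tagLast]
  | a, e :: es, fs => by
      simp only [List.cons_append, zOf, tagLast]
      rw [c2v3_zOf_append θ x e.2.2 es fs, add_assoc]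

theorem c2v3_tagAll_append (P : Fr n → ℝ × ℝ × Fr n → Prop) : ∀ (a : Fr n) (es fs : TagL n),
    tagAll P a (es ++ fs) ↔ tagAll P a es ∧ tagAll P (tagLast a es) fs
  | _, [], _ => by simp [tagAll, tagLast]
  | a, e :: es, fs => by
      simp only [List.cons_append, tagAll, tagLast]
      rw [c2v3_tagAll_append P e.2.2 es fs, and_assoc]

theorem c2v3_tagAny_append (P : Fr n → ℝ × ℝ × Fr n → Prop) : ∀ (a : Fr n) (es fs : TagL n),
    tagAny P a (es ++ fs) ↔ tagAny P a es ∨ tagAny P (tagLast a es) fs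
  | _, [], _ => by simp [tagAny, tagLast]
  | a, e :: es, fs => by
      simp only [List.cons_append, tagAny, tagLast]
      rw [c2v3_tagAny_append P e.2.2 es fs, or_assoc]

theorem c2v3_tagAll_mono_mem {P Q : Fr n → ℝ × ℝ × Fr n → Prop} : ∀ (a : Fr n) (es : TagL n),
    (∀ b, ∀ e ∈ es, P b e → Q b e) → tagAll P a es → tagAll Q a es
  | _, [], _, _ => trivial
  | _, e :: es, h, hP => ⟨h _ e (List.mem_cons_self ..) hP.1,
      c2v3_tagAll_mono_mem e.2.2 es (fun b e' he' => h b e' (List.mem_cons_of_mem _ he')) hP.2⟩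

/-- before its home time a cluster has no displacement -/
theorem c2v3_zOf_le (θ : Shape n) {τ x : ℝ} (hx : x ≤ τ) : ∀ (a : Fr n) (es : TagL n),
    (∀ e ∈ es, e.1 = τ) → zOf θ a es x = 0
  | _, [], _ => rfl
  | a, e :: es, h => by
      have h1 : ¬ e.1 < x := by
        rw [h e (List.mem_cons_self ..)]
        exact not_lt.2 hx
      simp only [zOf, if_neg h1, zero_add]
      exact c2v3_zOf_le θ hx e.2.2 es fun e' he' => h e' (List.mem_cons_of_mem _ he')

theorem c2v3_home_append (es fs : TagL n) : (es ++ fs).home = es.home ++ fs.home :=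
  List.map_append

theorem c2v3_act_append (es fs : TagL n) : (es ++ fs).act = es.act ++ fs.act :=
  List.map_append

/-- a cluster of simultaneous jumps is one jump -/
theorem c2v3_itPos_cluster (θ : Shape n) (S : ASt n) (τ : ℝ) (rest : List (ℝ × Fr n)) (x : ℝ) :
    ∀ (es : TagL n), es ≠ [] → (∀ e ∈ es, e.1 = τ) →
      itPos θ S (es.home ++ rest) x = itPos θ S ((τ, tagLast S.fr es) :: rest) x
  | [], h, _ => absurd rfl h
  | [e], _, h => by
      have h1 : e.1 = τ := h e (List.mem_cons_self ..)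
      simp only [TagL.home, List.map_cons, List.map_nil, List.cons_append, List.nil_append,
        tagLast, h1]
  | e :: e' :: es, _, h => by
      have h1 : e.1 = τ := h e (List.mem_cons_self ..)
      have h2 : e'.1 = τ := h e' (List.mem_cons_of_mem _ (List.mem_cons_self ..))
      have ih := c2v3_itPos_cluster θ S τ rest x (e' :: es) (List.cons_ne_nil _ _)
        (fun e'' he'' => h e'' (List.mem_cons_of_mem _ he''))
      simp only [TagL.home, List.map_cons, List.cons_append, tagLast, h1, h2] at ih ⊢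
      rw [itPos_split]
      exact ih

theorem c2v3_frAll_mono {P Q : Fr n → ℝ → Fr n → Prop} (h : ∀ a t v, P a t v → Q a t v) :
    ∀ (a : Fr n) (l : List (ℝ × Fr n)), frAll P a l → frAll Q a l
  | _, [], _ => trivial
  | _, p :: l, hP => ⟨h _ _ _ hP.1, c2v3_frAll_mono h p.2 l hP.2⟩

theorem c2v3_frAll_and {P Q : Fr n → ℝ → Fr n → Prop} :
    ∀ (a : Fr n) (l : List (ℝ × Fr n)), frAll P a l → frAll Q a l →
      frAll (fun a t v => P a t v ∧ Q a t v) a l
  | _, [], _, _ => trivial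
  | _, p :: l, hP, hQ => ⟨⟨hP.1, hQ.1⟩, c2v3_frAll_and p.2 l hP.2 hQ.2⟩

theorem c2v3_frAll_append (P : Fr n → ℝ → Fr n → Prop) : ∀ (a : Fr n) (l l' : List (ℝ × Fr n)),
    frAll P a (l ++ l') ↔ frAll P a l ∧ frAll P (frLast a l) l'
  | _, [], _ => by simp [frAll, frLast]
  | a, p :: l, l' => by
      simp only [List.cons_append, frAll, frLast]
      rw [c2v3_frAll_append P p.2 l l', and_assoc]

/-- pointing at a site -/
theorem c2v3_frAll_of_split {P : Fr n → ℝ → Fr n → Prop} : ∀ (l : List (ℝ × Fr n)) (a : Fr n),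
    (∀ l₁ p l₂, l = l₁ ++ p :: l₂ → P (frLast a l₁) p.1 p.2) → frAll P a l
  | [], _, _ => trivial
  | p :: l, a, h => ⟨h [] p l rfl, c2v3_frAll_of_split l p.2 fun l₁ q l₂ hl =>
      h (p :: l₁) q l₂ (by rw [hl]; rfl)⟩

/-- from the state machine to frames -/
theorem c2v3_frAll_of_itAll (θ : Shape n) {P : Fr n → ℝ → Fr n → Prop} :
    ∀ (l : List (ℝ × Fr n)) (S : ASt n), itAll θ (fun S t v => P S.fr t v) S l → frAll P S.fr l
  | [], _, _ => trivial
  | p :: l, S, h => ⟨h.1, c2v3_frAll_of_itAll θ l (S.jump θ p.1 p.2) h.2⟩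

theorem c2v3_itAll_of_frAll (θ : Shape n) {P : Fr n → ℝ → Fr n → Prop} :
    ∀ (l : List (ℝ × Fr n)) (S : ASt n), frAll P S.fr l → itAll θ (fun S t v => P S.fr t v) S l
  | [], _, _ => trivial
  | p :: l, S, h => ⟨h.1, c2v3_itAll_of_frAll θ l (S.jump θ p.1 p.2) h.2⟩

theorem c2v3_frAll_of_forall {P : Fr n → ℝ → Fr n → Prop} : ∀ (a : Fr n) (l : List (ℝ × Fr n)),
    (∀ b, ∀ p ∈ l, P b p.1 p.2) → frAll P a l
  | _, [], _ => trivial
  | _, p :: l, h => ⟨h _ p (List.mem_cons_self ..),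
      c2v3_frAll_of_forall p.2 l fun b q hq => h b q (List.mem_cons_of_mem _ hq)⟩

open Classical in
/-- velocity differences at the non-break jumps, in terms of frames only -/
noncomputable def frDeltas (θ : Shape n) : Fr n → List (ℝ × Fr n) → List (Vec n)
  | _, [] => []
  | a, p :: l =>
      (if IsBreak p.1 then [] else [a (slopeAt θ p.1) - p.2 (slopeAt θ p.1)]) ++ frDeltas θ p.2 l

theorem c2v3_itDeltas_eq (θ : Shape n) : ∀ (l : List (ℝ × Fr n)) (S : ASt n),
    itDeltas θ S l = frDeltas θ S.fr l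
  | [], _ => rfl
  | p :: l, S => by
      simp only [itDeltas, frDeltas]
      rw [c2v3_itDeltas_eq θ l (S.jump θ p.1 p.2)]
      rfl

theorem c2v3_frDeltas_append (θ : Shape n) : ∀ (a : Fr n) (l l' : List (ℝ × Fr n)),
    frDeltas θ a (l ++ l') = frDeltas θ a l ++ frDeltas θ (frLast a l) l'
  | _, [], _ => rfl
  | a, p :: l, l' => by
      simp only [List.cons_append, frDeltas, frLast]
      rw [c2v3_frDeltas_append θ p.2 l l', List.append_assoc]

/-! ## clusters and site variations -/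

/-- the predicate "moves a nonzero jump" of `no_variation` -/
def tagMoves (a : Fr n) (es : TagL n) : Prop :=
  tagAny (fun b e => b ≠ e.2.2 ∧ e.1 ≠ e.2.1) a es

/-- `es` is a cluster at the site `(τ, p)` replacing the jump `a → v`; at most `m` entries, actual
times within `r` of `τ`, displacement `z` -/
structure RDatum.IsCluster (D : RDatum n) (θ : Shape n) (τ : ℝ) (p : Vec n) (a v : Fr n) (m : ℕ)
    (r : ℝ) (z : Vec n) (es : TagL n) : Prop where
  ne : es ≠ []
  len : es.length ≤ m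
  home : ∀ e ∈ es, e.1 = τ
  fr_mem : ∀ e ∈ es, e.2.2 ∈ D.W
  close : ∀ e ∈ es, |e.2.1 - τ| ≤ r
  act_sorted : es.act.Pairwise (fun p q => p.1 ≤ q.1)
  loc : tagAll (fun b e => D.LocGe p b e.2.2) a es
  last : tagLast a es = v
  disp : ∀ x, τ < x → zOf θ a es x = z

/-- one-parameter family of clusters with displacement `s • w`; it moves (for `s ≠ 0`) if `mv` -/
def RDatum.SiteVar (D : RDatum n) (θ : Shape n) (τ : ℝ) (p : Vec n) (a v : Fr n) (w : Vec n)
    (mv : Prop) : Prop :=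
  ∃ m : ℕ, ∃ C : ℝ, 0 < C ∧ ∃ s₀ : ℝ, 0 < s₀ ∧ ∀ s : ℝ, |s| < s₀ →
    ∃ es : TagL n, D.IsCluster θ τ p a v m (C * |s|) (s • w) es ∧ (mv → s ≠ 0 → tagMoves a es)

/-- a site `(τ, v)` with its displacement `w` and its flag `mv` -/
abbrev WSite (n : ℕ) := (ℝ × Fr n) × (Vec n × Prop)

/-- every site carries a site variation (`Y` = the path) -/
def RDatum.siteAll (D : RDatum n) (θ : Shape n) (Y : ℝ → Vec n) : Fr n → List (WSite n) → Prop
  | _, [] => True
  | a, q :: L => D.SiteVar θ q.1.1 (Y q.1.1) a q.1.2 q.2.1 q.2.2 ∧ siteAll D θ Y q.1.2 L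

/-- every site carries a cluster with the parameters `m`, `r`, `s` -/
def RDatum.siteAllAt (D : RDatum n) (θ : Shape n) (Y : ℝ → Vec n) (m : ℕ) (r s : ℝ) :
    Fr n → List (WSite n) → Prop
  | _, [] => True
  | a, q :: L =>
      (∃ es : TagL n, D.IsCluster θ q.1.1 (Y q.1.1) a q.1.2 m r (s • q.2.1) es ∧
        (q.2.2 → s ≠ 0 → tagMoves a es)) ∧ siteAllAt D θ Y m r s q.1.2 L

open Classical in
/-- partial sums of the displacements -/
noncomputable def wSum : List (WSite n) → ℝ → Vec n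
  | [], _ => 0
  | q :: L, x => (if q.1.1 < x then q.2.1 else 0) + wSum L x

namespace RDatum

variable (D : RDatum n)

theorem IsCluster.mono {D : RDatum n} {θ : Shape n} {τ : ℝ} {p : Vec n} {a v : Fr n} {m m' : ℕ}
    {r r' : ℝ} {z : Vec n} {es : TagL n} (h : D.IsCluster θ τ p a v m r z es) (hm : m ≤ m')
    (hr : r ≤ r') : D.IsCluster θ τ p a v m' r' z es :=
  { h with len := h.len.trans hm, close := fun e he => (h.close e he).trans hr }

theorem c2v3_siteAll_append (θ : Shape n) (Y : ℝ → Vec n) : ∀ (a : Fr n) (L L' : List (WSite n)),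
    D.siteAll θ Y a (L ++ L') ↔
      D.siteAll θ Y a L ∧ D.siteAll θ Y (frLast a (L.map Prod.fst)) L'
  | _, [], _ => by simp [siteAll, frLast]
  | a, q :: L, L' => by
      simp only [List.cons_append, siteAll, List.map_cons, frLast]
      rw [c2v3_siteAll_append θ Y q.1.2 L L', and_assoc]

theorem c2v3_siteAllAt_mono (θ : Shape n) (Y : ℝ → Vec n) {m m' : ℕ} {r r' s : ℝ} (hm : m ≤ m')
    (hr : r ≤ r') : ∀ (L : List (WSite n)) (a : Fr n),
    D.siteAllAt θ Y m r s a L → D.siteAllAt θ Y m' r' s a L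
  | [], _, _ => trivial
  | q :: L, _, h => ⟨by
      obtain ⟨es, h1, h2⟩ := h.1
      exact ⟨es, h1.mono hm hr, h2⟩, c2v3_siteAllAt_mono θ Y hm hr L q.1.2 h.2⟩

/-- (L-2C-V3-a) uniform constants.
PLAN: first monotonicity of `siteAllAt` in `m` and `r` (`IsCluster.mono`, induction on `L`).  Then induction on
`L`: `[]`: `0, 1, 1`; `q :: L`: `max m₁ m₂`, `max C₁ C₂`, `min s₁ s₂`. ~50 lines. -/
theorem c2v3_uniform (θ : Shape n) (Y : ℝ → Vec n) : ∀ (L : List (WSite n)) (a : Fr n),
    D.siteAll θ Y a L →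
      ∃ m : ℕ, ∃ C : ℝ, 0 < C ∧ ∃ s₀ : ℝ, 0 < s₀ ∧ ∀ s : ℝ, |s| < s₀ →
        D.siteAllAt θ Y m (C * |s|) s a L := by
  intro L
  induction L with
  | nil => exact fun _ _ => ⟨0, 1, one_pos, 1, one_pos, fun _ _ => trivial⟩
  | cons q L ih =>
    intro a h
    obtain ⟨m₁, C₁, hC₁, s₁, hs₁, H₁⟩ := h.1
    obtain ⟨m₂, C₂, _, s₂, hs₂, H₂⟩ := ih q.1.2 h.2
    refine ⟨max m₁ m₂, max C₁ C₂, lt_max_of_lt_left hC₁, min s₁ s₂, lt_min hs₁ hs₂, fun s hs => ?_⟩
    obtain ⟨es, hes, hmv⟩ := H₁ s (hs.trans_le (min_le_left _ _))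
    exact ⟨⟨es, hes.mono (le_max_left _ _)
      (mul_le_mul_of_nonneg_right (le_max_left _ _) (abs_nonneg s)), hmv⟩,
      D.c2v3_siteAllAt_mono θ Y (le_max_right _ _)
        (mul_le_mul_of_nonneg_right (le_max_right _ _) (abs_nonneg s)) L _
        (H₂ s (hs.trans_le (min_le_right _ _)))⟩

/-- (L-2C-V3-b) concatenation of the clusters.
PLAN: induction on `L` (state `a` general); `fs = es ++ fs'`.  Use `c2v3_home_append`, `c2v3_act_append`,
`List.pairwise_append`, `c2v3_itPos_cluster` (then unfold `itPos` once: `if x ≤ τ`, IH with the new `c`),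
`c2v3_tagAll_append` + `c2v3_tagAll_mono_mem` (`e.1 = τ`), `c2v3_zOf_append`, `c2v3_zOf_le`/`IsCluster.disp`
(`zOf es x = s • (if τ < x then w else 0)`), `c2v3_tagAny_append`, `IsCluster.last`.
Cross terms of `act`: `e.act ≤ τ + r ≤ τ' - r ≤ e'.act`; of `home`: `τ ≤ τ + 2 r ≤ τ'`. ~150 lines. -/
theorem c2v3_build (θ : Shape n) (Y : ℝ → Vec n) (m : ℕ) (r s : ℝ) (hr : 0 ≤ r) :
    ∀ (L : List (WSite n)) (a : Fr n),
      L.Pairwise (fun p q => p.1.1 + 2 * r ≤ q.1.1) → D.siteAllAt θ Y m r s a L →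
      ∃ fs : TagL n, fs.length ≤ m * L.length ∧ (∀ e ∈ fs, e.2.2 ∈ D.W) ∧
        (∀ e ∈ fs, e.1 ∈ (L.map Prod.fst).map Prod.fst ∧ |e.2.1 - e.1| ≤ r) ∧
        fs.home.Pairwise (fun p q => p.1 ≤ q.1) ∧ fs.act.Pairwise (fun p q => p.1 ≤ q.1) ∧
        (∀ c x, itPos θ ⟨a, c⟩ fs.home x = itPos θ ⟨a, c⟩ (L.map Prod.fst) x) ∧
        tagAll (fun b e => D.LocGe (Y e.1) b e.2.2) a fs ∧
        (∀ x, zOf θ a fs x = s • wSum L x) ∧
        ((∃ q ∈ L, q.2.2) → s ≠ 0 → tagMoves a fs) := by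
  intro L
  induction L with
  | nil =>
    intro a _ _
    refine ⟨[], by simp, by simp, by simp, List.Pairwise.nil, List.Pairwise.nil,
      fun _ _ => rfl, trivial, fun x => by simp [zOf, wSum], ?_⟩
    rintro ⟨q, hq, _⟩
    simp at hq
  | cons q L ih =>
    intro a hpw hall
    obtain ⟨⟨es, hes, hmv⟩, hall'⟩ := hall
    rw [List.pairwise_cons] at hpw
    obtain ⟨hq, hpw'⟩ := hpw
    obtain ⟨fs, f1, f2, f3, f4, f5, f6, f7, f8, f9⟩ := ih q.1.2 hpw' hall'
    -- the later sites are far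
    have hfar : ∀ e ∈ fs, q.1.1 + 2 * r ≤ e.1 := by
      intro e he
      obtain ⟨g1, -⟩ := f3 e he
      rw [List.map_map] at g1
      obtain ⟨q', hq', hqe⟩ := List.mem_map.1 g1
      rw [← hqe]
      exact hq q' hq'
    refine ⟨es ++ fs, ?_, ?_, ?_, ?_, ?_, ?_, ?_, ?_, ?_⟩
    · rw [List.length_append, List.length_cons, Nat.mul_succ]
      have := hes.len
      omega
    · intro e he
      rcases List.mem_append.1 he with he | he
      · exact hes.fr_mem e he
      · exact f2 e he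
    · intro e he
      rcases List.mem_append.1 he with he | he
      · rw [hes.home e he]
        exact ⟨by simp, hes.close e he⟩
      · obtain ⟨g1, g2⟩ := f3 e he
        exact ⟨by simp only [List.map_cons]; exact List.mem_cons_of_mem _ g1, g2⟩
    · rw [c2v3_home_append, List.pairwise_append]
      refine ⟨?_, f4, ?_⟩
      · unfold TagL.home
        rw [List.pairwise_map]
        refine List.pairwise_of_forall_mem_list ?_
        intro e he e' he'
        show e.1 ≤ e'.1
        rw [hes.home e he, hes.home e' he']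
      · intro p hp p' hp'
        obtain ⟨e, he, rfl⟩ := List.mem_map.1 hp
        obtain ⟨e', he', rfl⟩ := List.mem_map.1 hp'
        show e.1 ≤ e'.1
        rw [hes.home e he]
        have := hfar e' he'
        linarith
    · rw [c2v3_act_append, List.pairwise_append]
      refine ⟨hes.act_sorted, f5, ?_⟩
      intro p hp p' hp'
      obtain ⟨e, he, rfl⟩ := List.mem_map.1 hp
      obtain ⟨e', he', rfl⟩ := List.mem_map.1 hp'
      show e.2.1 ≤ e'.2.1
      have h1 := hes.close e he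
      have h2 := (f3 e' he').2
      have h3 := hfar e' he'
      rw [abs_le] at h1 h2
      linarith [h1.2, h2.1]
    · intro c x
      rw [c2v3_home_append, c2v3_itPos_cluster θ ⟨a, c⟩ q.1.1 fs.home x es hes.ne hes.home]
      show itPos θ ⟨a, c⟩ ((q.1.1, tagLast a es) :: fs.home) x = _
      rw [hes.last, List.map_cons]
      by_cases hx : x ≤ q.1.1
      · rw [itPos_cons_le θ _ _ _ hx, itPos_cons_le θ _ _ _ hx]
      · have hx' : q.1.1 < x := not_le.1 hx
        rw [itPos_cons_gt θ _ _ _ hx', itPos_cons_gt θ _ _ _ hx']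
        exact f6 _ x
    · rw [c2v3_tagAll_append, hes.last]
      refine ⟨c2v3_tagAll_mono_mem a es ?_ hes.loc, f7⟩
      intro b e he hloc
      rw [hes.home e he]
      exact hloc
    · intro x
      rw [c2v3_zOf_append, hes.last, f8]
      simp only [wSum]
      rw [smul_add]
      congr 1
      by_cases hx : q.1.1 < x
      · rw [if_pos hx, hes.disp x hx]
      · rw [if_neg hx, smul_zero, c2v3_zOf_le θ (not_lt.1 hx) a es hes.home]
    · rintro ⟨q', hq', hq2⟩ hs
      unfold tagMoves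
      rw [c2v3_tagAny_append, hes.last]
      rcases List.mem_cons.1 hq' with rfl | hq'
      · exact Or.inl (hmv hq2 hs)
      · exact Or.inr (f9 ⟨q', hq', hq2⟩ hs)

end RDatum

theorem c2v3_gap_aux (t : ℝ) : ∀ l : List (ℝ × Fr n), (∀ q ∈ l, t < q.1) →
    ∃ ε : ℝ, 0 < ε ∧ ∀ q ∈ l, t + 2 * ε ≤ q.1
  | [], _ => ⟨1, one_pos, fun q hq => absurd hq List.not_mem_nil⟩
  | p :: l, h => by
      obtain ⟨ε, hε, H⟩ := c2v3_gap_aux t l fun q hq => h q (List.mem_cons_of_mem _ hq)
      have hp := h p (List.mem_cons_self ..)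
      refine ⟨min ε ((p.1 - t) / 2), lt_min hε (by linarith), fun q hq => ?_⟩
      rcases List.mem_cons.1 hq with rfl | hq
      · have := min_le_right ε ((q.1 - t) / 2)
        linarith
      · have := min_le_left ε ((p.1 - t) / 2)
        have := H q hq
        linarith

theorem c2v3_gap_gen (T : ℝ) : ∀ l : List (ℝ × Fr n), l.Pairwise (fun p q => p.1 < q.1) →
    (∀ p ∈ l, 0 < p.1 ∧ p.1 < T) →
    ∃ ε : ℝ, 0 < ε ∧ l.Pairwise (fun p q => p.1 + 2 * ε ≤ q.1) ∧ ∀ p ∈ l, ε ≤ p.1 ∧ p.1 + ε ≤ T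
  | [], _, _ => ⟨1, one_pos, List.Pairwise.nil, fun q hq => absurd hq List.not_mem_nil⟩
  | p :: l, hs, hi => by
      rw [List.pairwise_cons] at hs
      obtain ⟨ε₁, h1, H1, H1'⟩ := c2v3_gap_gen T l hs.2 fun q hq => hi q (List.mem_cons_of_mem _ hq)
      obtain ⟨ε₂, h2, H2⟩ := c2v3_gap_aux p.1 l hs.1
      obtain ⟨hp0, hp1⟩ := hi p (List.mem_cons_self ..)
      have e1 : min (min ε₁ ε₂) (min p.1 (T - p.1)) ≤ ε₁ := (min_le_left _ _).trans (min_le_left _ _)
      have e2 : min (min ε₁ ε₂) (min p.1 (T - p.1)) ≤ ε₂ := (min_le_left _ _).trans (min_le_right _ _)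
      have e3 : min (min ε₁ ε₂) (min p.1 (T - p.1)) ≤ p.1 := (min_le_right _ _).trans (min_le_left _ _)
      have e4 : min (min ε₁ ε₂) (min p.1 (T - p.1)) ≤ T - p.1 :=
        (min_le_right _ _).trans (min_le_right _ _)
      refine ⟨min (min ε₁ ε₂) (min p.1 (T - p.1)),
        lt_min (lt_min h1 h2) (lt_min hp0 (by linarith)), ?_, ?_⟩
      · rw [List.pairwise_cons]
        refine ⟨fun q hq => ?_, H1.imp fun {a b} hab => ?_⟩
        · have := H2 q hq
          linarith
        · linarith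
      · intro q hq
        rcases List.mem_cons.1 hq with rfl | hq
        · constructor <;> linarith
        · obtain ⟨g1, g2⟩ := H1' q hq
          constructor <;> linarith

/-- (L-2C-V3-c) room around the sites of a normal form.
PLAN: prove it for any `l` with `l.Pairwise (·.1 < ·.1)` and `∀ p ∈ l, 0 < p.1 ∧ p.1 < T` by induction on `l`
(minimum of the old `ε`, `p.1`, `T - p.1` and, over the finitely many later `q`, `(q.1 - p.1)/2`: a second small
induction, or `List.pairwise_cons` + an auxiliary `∃ ε > 0, ∀ q ∈ l, p.1 + 2 ε ≤ q.1`). ~60 lines. -/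
theorem c2v3_gap {θ : Shape n} {u0 : Fr n} {l : List (ℝ × Fr n)} (h : RDatum.IsNF θ u0 l) :
    ∃ ε : ℝ, 0 < ε ∧ l.Pairwise (fun p q => p.1 + 2 * ε ≤ q.1) ∧
      ∀ p ∈ l, ε ≤ p.1 ∧ p.1 + ε ≤ (θ.length : ℝ) := by
  exact c2v3_gap_gen _ l h.strict h.interior

/-- after all sites the partial sum is the total sum -/
theorem c2v3_wSum_top {x : ℝ} : ∀ (L : List (WSite n)), (∀ q ∈ L, q.1.1 < x) →
    wSum L x = (L.map fun q => q.2.1).sum
  | [], _ => rfl
  | q :: L, h => by
      simp only [wSum, List.map_cons, List.sum_cons, if_pos (h q (List.mem_cons_self ..))]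
      rw [c2v3_wSum_top L fun q' hq' => h q' (List.mem_cons_of_mem _ hq')]

namespace RDatum

variable (D : RDatum n)

/-- **Assembly**: site variations at all sites of a maximiser with total displacement `0` cannot
move. -/
theorem c2v3_assembly {lam xi : Vec n} {θ : Shape n} {u0 : Fr n} {l : List (ℝ × Fr n)}
    (hθ : ∀ v ∈ θ, D.Reg v) (h : D.IsMaxUnf lam θ xi u0 l) (L : List (WSite n))
    (hL : L.map Prod.fst = l) (hs : D.siteAll θ (itPos θ ⟨u0, lam⟩ l) u0 L)
    (hsum : (L.map fun q => q.2.1).sum = 0) (hmv : ∃ q ∈ L, q.2.2) : False := by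
  obtain ⟨m, C, hC, s₀, hs₀, hall⟩ := D.c2v3_uniform θ _ L u0 hs
  obtain ⟨δ, hδ, hno⟩ := D.no_variation hθ h (m * L.length)
  obtain ⟨ε, hε, hgap, hroom⟩ := c2v3_gap h.nf
  -- the parameter
  set s : ℝ := min (s₀ / 2) (min ε δ / C) with hsdef
  have hspos : 0 < s := lt_min (by positivity) (div_pos (lt_min hε hδ) hC)
  have hs1 : |s| < s₀ := by
    rw [abs_of_pos hspos]
    exact lt_of_le_of_lt (min_le_left _ _) (by linarith)
  have hs2 : C * |s| ≤ min ε δ := by
    rw [abs_of_pos hspos]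
    have : s ≤ min ε δ / C := min_le_right _ _
    rwa [le_div_iff₀ hC, mul_comm] at this
  have hr0 : 0 ≤ C * |s| := by positivity
  have hpw : L.Pairwise (fun p q => p.1.1 + 2 * (C * |s|) ≤ q.1.1) := by
    have h1 : (L.map Prod.fst).Pairwise (fun p q => p.1 + 2 * ε ≤ q.1) := by rw [hL]; exact hgap
    rw [List.pairwise_map] at h1
    refine h1.imp ?_
    intro p q hpq
    have := hs2.trans (min_le_left _ _)
    linarith
  have hok : ∀ s' : ℝ, |s'| = |s| → ∃ fs : TagL n, fs.length ≤ m * L.length ∧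
      D.VarOK lam θ u0 l δ fs ∧ (∀ x, zOf θ u0 fs x = s' • wSum L x) ∧
      (s' ≠ 0 → tagMoves u0 fs) := by
    intro s' hs'
    have hA := hall s' (by rw [hs']; exact hs1)
    rw [hs'] at hA
    obtain ⟨fs, f1, f2, f3, f4, f5, f6, f7, f8, f9⟩ := D.c2v3_build θ _ m _ s' hr0 L u0 hpw hA
    rw [hL] at f3 f6
    refine ⟨fs, f1, ⟨f2, f4, f5, fun e he => (f3 e he).1, ?_, ?_, f6 lam, f7⟩, f8, f9 hmv⟩
    · intro e he
      obtain ⟨g1, g2⟩ := f3 e he
      obtain ⟨p, hp, hpe⟩ := List.mem_map.1 g1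
      obtain ⟨r1, r2⟩ := hroom p hp
      have := hs2.trans (min_le_left _ _)
      rw [abs_le] at g2
      rw [hpe] at r1 r2
      constructor <;> linarith [g2.1, g2.2]
    · intro e he
      exact (f3 e he).2.trans (hs2.trans (min_le_right _ _))
  obtain ⟨fp, p1, p2, p3, p4⟩ := hok s rfl
  obtain ⟨fm, m1, m2, m3, -⟩ := hok (-s) (abs_neg s)
  refine hno fp fm p1 m1 p2 m2 ?_ ?_ (p4 hspos.ne')
  · intro x
    rw [p3, m3, neg_smul]
  · rw [p3, c2v3_wSum_top L, hsum, smul_zero]
    intro q hq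
    have : q.1 ∈ l := by rw [← hL]; exact List.mem_map_of_mem hq
    exact (h.nf.interior _ this).2

/-! ## shifts -/

/-- (L-2C-V3-d) the jump at a non-break site is shifted by `s c` (`c = 0` at a break).
PLAN: `es = [(τ, τ + s * c, v)]`, `m = 1`, `C = |c| + 1`.  If `c = 0`: any `s₀`; `zOf = 0`.  Otherwise `τ` is not a
break: `k = ⌊τ⌋₊`, `k < τ < k + 1` (`Nat.floor_le`, `Nat.lt_floor_add_one`, `k ≠ τ` as `¬ IsBreak τ`),
`s₀ = min (τ - k) (k + 1 - τ) / (|c| + 1)`, `Shape.val_sub_piece θ k`: `η τ - η (τ + s c) = (-(s c)) • slopeAt θ τ`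
(`slopeAt θ τ = θ.getD k 0` by `rfl`), `map_smul`.  Moving: `τ ≠ τ + s c`. ~90 lines. -/
theorem c2v3_site_shift (θ : Shape n) {τ : ℝ} (hτ0 : 0 < τ) (p : Vec n) {a v : Fr n}
    (hv : v ∈ D.W) (hloc : D.LocGe p a v) (c : ℝ) (hc : IsBreak τ → c = 0) :
    D.SiteVar θ τ p a v (c • (a (slopeAt θ τ) - v (slopeAt θ τ))) (c ≠ 0 ∧ a ≠ v) := by
  have hcl : ∀ (s : ℝ), θ.val τ - θ.val (τ + s * c) = (-(s * c)) • slopeAt θ τ →
      D.IsCluster θ τ p a v 1 ((|c| + 1) * |s|)
        (s • c • (a (slopeAt θ τ) - v (slopeAt θ τ))) [(τ, τ + s * c, v)] := by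
    intro s hval
    refine ⟨List.cons_ne_nil _ _, le_rfl, ?_, ?_, ?_, List.pairwise_singleton _ _, ⟨hloc, trivial⟩,
      rfl, ?_⟩
    · intro e he
      rw [List.mem_singleton.1 he]
    · intro e he
      rw [List.mem_singleton.1 he]
      exact hv
    · intro e he
      rw [List.mem_singleton.1 he]
      simp only
      rw [add_sub_cancel_left, abs_mul]
      nlinarith [abs_nonneg s, abs_nonneg c]
    · intro x hx
      simp only [zOf]
      rw [if_pos hx, hval, map_smul, map_smul]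
      module
  have hmove : ∀ s : ℝ, (c ≠ 0 ∧ a ≠ v) → s ≠ 0 → tagMoves a [(τ, τ + s * c, v)] := by
    intro s hmv hs
    refine Or.inl ⟨hmv.2, ?_⟩
    simp only
    intro hcon
    have : s * c = 0 := by linarith
    exact (mul_ne_zero hs hmv.1) this
  by_cases hc0 : c = 0
  · refine ⟨1, |c| + 1, by positivity, 1, one_pos, fun s _ => ⟨_, hcl s ?_, hmove s⟩⟩
    rw [hc0, mul_zero, add_zero, sub_self, neg_zero, zero_smul]
  · have hnb : ¬ IsBreak τ := fun hb => hc0 (hc hb)
    have hk1 : ((⌊τ⌋₊ : ℕ) : ℝ) ≤ τ := Nat.floor_le hτ0.le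
    have hk2 : τ < ((⌊τ⌋₊ : ℕ) : ℝ) + 1 := Nat.lt_floor_add_one τ
    have hk3 : ((⌊τ⌋₊ : ℕ) : ℝ) < τ := lt_of_le_of_ne hk1 fun e => hnb ⟨(⌊τ⌋₊ : ℕ), by
      rw [← e]
      simp⟩
    have hc1 : 0 < |c| + 1 := by positivity
    refine ⟨1, |c| + 1, hc1, min (τ - (⌊τ⌋₊ : ℕ)) ((⌊τ⌋₊ : ℕ) + 1 - τ) / (|c| + 1),
      div_pos (lt_min (by linarith) (by linarith)) hc1, fun s hs => ⟨_, hcl s ?_, hmove s⟩⟩
    rw [lt_div_iff₀ hc1] at hs
    have h1 : |s * c| < min (τ - (⌊τ⌋₊ : ℕ)) ((⌊τ⌋₊ : ℕ) + 1 - τ) := by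
      rw [abs_mul]
      nlinarith [abs_nonneg s, abs_nonneg c]
    have h2 := abs_lt.1 (h1.trans_le (min_le_left _ _))
    have h3 := abs_lt.1 (h1.trans_le (min_le_right _ _))
    rw [θ.val_sub_piece ⌊τ⌋₊ (s := τ + s * c) (t := τ) (by linarith [h2.1]) (by linarith [h3.2]) hk1
      hk2.le]
    congr 1
    ring

/-- (L-2C-V3-e) every element of the span of the velocity differences is the total displacement of
a family of shifts.
PLAN: induction on `l`.  `[]`: `x = 0` (`Submodule.span_empty`-like), `L = []`.  `p :: l`: break: head with `c = 0`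
(`c2v3_site_shift`, flag `(0:ℝ) ≠ 0 ∧ a ≠ v`), tail by IH for `x`.  Non-break: `{y | y ∈ [δ] ++ ds} = insert δ {y | y ∈ ds}`,
`Submodule.mem_span_insert`: `x = c • δ + x'`; head with `c`, tail by IH for `x'`. ~70 lines. -/
theorem c2v3_shift_fam (θ : Shape n) (Y : ℝ → Vec n) : ∀ (l : List (ℝ × Fr n)) (a : Fr n)
    (x : Vec n), frAll (fun a t v => v ∈ D.W ∧ 0 < t ∧ D.LocGe (Y t) a v) a l →
      x ∈ Submodule.span ℝ {y | y ∈ frDeltas θ a l} →
      ∃ L : List (WSite n), L.map Prod.fst = l ∧ D.siteAll θ Y a L ∧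
        (L.map fun q => q.2.1).sum = x := by
  intro l
  induction l with
  | nil =>
    intro a x _ hx
    have h0 : {y : Vec n | y ∈ frDeltas θ a []} = ∅ := by
      ext y
      simp [frDeltas]
    rw [h0, Submodule.span_empty, Submodule.mem_bot] at hx
    exact ⟨[], rfl, trivial, hx.symm⟩
  | cons p l ih =>
    intro a x hf hx
    obtain ⟨⟨hv, ht, hloc⟩, hf'⟩ := hf
    by_cases hb : IsBreak p.1
    · simp only [frDeltas, if_pos hb, List.nil_append] at hx
      obtain ⟨L, h1, h2, h3⟩ := ih p.2 x hf' hx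
      refine ⟨(p, _, _) :: L, by rw [List.map_cons, h1],
        ⟨D.c2v3_site_shift θ ht (Y p.1) hv hloc 0 fun _ => rfl, h2⟩, ?_⟩
      rw [List.map_cons, List.sum_cons, h3, zero_smul, zero_add]
    · simp only [frDeltas, if_neg hb] at hx
      have hset : {y | y ∈ [a (slopeAt θ p.1) - p.2 (slopeAt θ p.1)] ++ frDeltas θ p.2 l}
          = insert (a (slopeAt θ p.1) - p.2 (slopeAt θ p.1)) {y | y ∈ frDeltas θ p.2 l} := by
        ext y
        simp
      rw [hset, Submodule.mem_span_insert] at hx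
      obtain ⟨c, z, hz, rfl⟩ := hx
      obtain ⟨L, h1, h2, h3⟩ := ih p.2 z hf' hz
      refine ⟨(p, _, _) :: L, by rw [List.map_cons, h1],
        ⟨D.c2v3_site_shift θ ht (Y p.1) hv hloc c fun h => absurd h hb, h2⟩, ?_⟩
      rw [List.map_cons, List.sum_cons, h3]

end RDatum

/-- (L-2C-V3-g1) PLAN: `(d :: ds).get = Fin.cons d ds.get` (funext, `Fin.cases`), `linearIndependent_fin_cons`,
`Set.range ds.get = {y | y ∈ ds}` (`List.mem_iff_get`). ~30 lines. -/
theorem c2v3_indepL_cons (d : Vec n) (ds : List (Vec n)) :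
    IndepL (d :: ds) ↔ IndepL ds ∧ d ∉ Submodule.span ℝ {y | y ∈ ds} := by
  have e : (fun i : Fin (d :: ds).length => (d :: ds).get i)
      = (Fin.cons d (fun i : Fin ds.length => ds.get i) : Fin (ds.length + 1) → Vec n) := by
    funext i
    refine Fin.cases ?_ (fun j => ?_) i
    · rfl
    · rfl
  have hr : Set.range (fun i : Fin ds.length => ds.get i) = {y | y ∈ ds} := by
    ext y
    constructor
    · rintro ⟨i, rfl⟩
      exact List.get_mem ds i
    · intro hy
      obtain ⟨i, hi⟩ := List.mem_iff_get.1 hy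
      exact ⟨i, hi⟩
  unfold IndepL
  rw [e]
  have := linearIndependent_finCons (K := ℝ) (x := d) (v := fun i : Fin ds.length => ds.get i)
  rw [hr] at this
  exact this

/-- (L-2C-V3-g2) PLAN: `i₀ = ⟨A.length, _⟩`; `LinearIndependent.notMem_span_image` with `s = {i₀}ᶜ`; every element of
`A ++ B` is `(A ++ x :: B).get i` for some `i ≠ i₀` (`List.getElem_append_left/right`); `Submodule.span_mono`.
Alternative: induction on `A` with `c2v3_indepL_cons` needs an exchange argument: not recommended. ~50 lines. -/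
theorem c2v3_indepL_mid (A B : List (Vec n)) (x : Vec n) (h : IndepL (A ++ x :: B)) :
    x ∉ Submodule.span ℝ {y | y ∈ A ++ B} := by
  have hlen : A.length < (A ++ x :: B).length := by
    rw [List.length_append, List.length_cons]
    omega
  have h0 : (A ++ x :: B).get ⟨A.length, hlen⟩ = x := by
    simp
  have h1 := h.notMem_span_image (s := {(⟨A.length, hlen⟩ : Fin (A ++ x :: B).length)}ᶜ)
    (x := ⟨A.length, hlen⟩) (by simp)
  rw [h0] at h1
  intro hx
  apply h1
  refine Submodule.span_mono ?_ hx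
  intro y hy
  rcases List.mem_append.1 hy with hy | hy
  · obtain ⟨i, hi, rfl⟩ := List.mem_iff_getElem.1 hy
    refine ⟨⟨i, by rw [List.length_append]; omega⟩, ?_, ?_⟩
    · simp only [Set.mem_compl_iff, Set.mem_singleton_iff, Fin.mk.injEq]
      omega
    · simp [List.getElem_append_left hi]
  · obtain ⟨j, hj, rfl⟩ := List.mem_iff_getElem.1 hy
    refine ⟨⟨A.length + 1 + j, by rw [List.length_append, List.length_cons]; omega⟩, ?_, ?_⟩
    · simp only [Set.mem_compl_iff, Set.mem_singleton_iff, Fin.mk.injEq]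
      omega
    · simp only [List.get_eq_getElem]
      rw [List.getElem_append_right (by omega)]
      have e : A.length + 1 + j - A.length = j + 1 := by omega
      simp only [e, List.getElem_cons_succ]

namespace RDatum

variable (D : RDatum n)

/-- (L-2C-V3-f) a linear relation between the velocity differences gives a moving family of shifts
with total displacement `0`.
PLAN: induction on `l`.  `[]`: `IndepL []` holds (`linearIndependent_empty_type`).  `p :: l`: break: head `c = 0`, tail IH.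
Non-break: `c2v3_indepL_cons`: either the tail is dependent (head `c = 0`, tail IH) or `δ ∈ span (tail)`: head `c = 1`
(flag `(1:ℝ) ≠ 0 ∧ a ≠ v` holds), tail `c2v3_shift_fam` for `x = -δ`. ~80 lines. -/
theorem c2v3_dep_fam (θ : Shape n) (Y : ℝ → Vec n) : ∀ (l : List (ℝ × Fr n)) (a : Fr n),
    frAll (fun a t v => (v ∈ D.W ∧ 0 < t ∧ D.LocGe (Y t) a v) ∧ a ≠ v) a l →
      ¬ IndepL (frDeltas θ a l) →
      ∃ L : List (WSite n), L.map Prod.fst = l ∧ D.siteAll θ Y a L ∧
        (L.map fun q => q.2.1).sum = 0 ∧ ∃ q ∈ L, q.2.2 := by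
  intro l
  induction l with
  | nil =>
    intro a _ hdep
    have hnil : IndepL ([] : List (Vec n)) := by
      unfold IndepL
      have : IsEmpty (Fin ([] : List (Vec n)).length) := Fin.isEmpty
      exact linearIndependent_empty_type
    exact absurd hnil hdep
  | cons p l ih =>
    intro a hf hdep
    obtain ⟨⟨⟨hv, ht, hloc⟩, hne⟩, hf'⟩ := hf
    have hzero : ¬ IndepL (frDeltas θ p.2 l) →
        ∃ L : List (WSite n), L.map Prod.fst = p :: l ∧ D.siteAll θ Y a L ∧
          (L.map fun q => q.2.1).sum = 0 ∧ ∃ q ∈ L, q.2.2 := by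
      intro hd
      obtain ⟨L, h1, h2, h3, q, hq, hq2⟩ := ih p.2 hf' hd
      refine ⟨(p, _, _) :: L, by rw [List.map_cons, h1],
        ⟨D.c2v3_site_shift θ ht (Y p.1) hv hloc 0 fun _ => rfl, h2⟩, ?_,
        q, List.mem_cons_of_mem _ hq, hq2⟩
      rw [List.map_cons, List.sum_cons, h3, zero_smul, zero_add]
    by_cases hb : IsBreak p.1
    · simp only [frDeltas, if_pos hb, List.nil_append] at hdep
      exact hzero hdep
    · simp only [frDeltas, if_neg hb, List.singleton_append] at hdep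
      rw [c2v3_indepL_cons] at hdep
      by_cases hi : IndepL (frDeltas θ p.2 l)
      · have hmem : a (slopeAt θ p.1) - p.2 (slopeAt θ p.1)
            ∈ Submodule.span ℝ {y | y ∈ frDeltas θ p.2 l} := by
          by_contra hcon
          exact hdep ⟨hi, hcon⟩
        obtain ⟨L, h1, h2, h3⟩ := D.c2v3_shift_fam θ Y l p.2 _
          (c2v3_frAll_mono (fun _ _ _ hh => hh.1) _ _ hf') (Submodule.neg_mem _ hmem)
        refine ⟨(p, _, _) :: L, by rw [List.map_cons, h1],
          ⟨D.c2v3_site_shift θ ht (Y p.1) hv hloc 1 fun h => absurd h hb, h2⟩, ?_,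
          _, List.mem_cons_self .., ⟨one_ne_zero, hne⟩⟩
        rw [List.map_cons, List.sum_cons, h3, one_smul, add_neg_cancel]
      · exact hzero hi

theorem c2v3_frAll_memW : ∀ (l : List (ℝ × Fr n)) (a : Fr n), a ∈ D.W → (∀ p ∈ l, p.2 ∈ D.W) →
    frAll (fun a _ _ => a ∈ D.W) a l
  | [], _, _, _ => trivial
  | p :: l, _, ha, h => ⟨ha, c2v3_frAll_memW l p.2 (h p (List.mem_cons_self ..))
      fun q hq => h q (List.mem_cons_of_mem _ hq)⟩

theorem c2v3_frAll_ne : ∀ (l : List (ℝ × Fr n)) (a : Fr n),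
    (a :: l.map Prod.snd).IsChain (fun a b => a ≠ b) → frAll (fun a _ v => a ≠ v) a l
  | [], _, _ => trivial
  | p :: l, _, h => by
      rw [List.map_cons, List.isChain_cons_cons] at h
      exact ⟨h.1, c2v3_frAll_ne l p.2 h.2⟩

/-- (L-2C-V3-h) what a maximiser in normal form knows about its sites, in terms of frames.
PLAN: `c2v3_frAll_and` of: (1) `LocGe`: `h.adm.adm` + `itAll_pos` (`itAll_and`, `itAll_mono`, rewrite the position) +
`c2v3_frAll_of_itAll`; (2) `v ∈ W`, `0 < t`, `t < T`: `c2v3_frAll_of_forall` (`h.adm.fr_mem`, `h.nf.interior`);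
(3) `a ∈ W`: induction (general `a ∈ W`, all `p.2 ∈ W`); (4) `a ≠ v`: induction from `h.nf.nonzero`
(`List.isChain_cons_cons`).  Reorder with `c2v3_frAll_mono`. ~70 lines. -/
theorem c2v3_facts {lam xi : Vec n} {θ : Shape n} {u0 : Fr n} {l : List (ℝ × Fr n)}
    (h : D.IsMaxUnf lam θ xi u0 l) :
    frAll (fun a t v => ((v ∈ D.W ∧ 0 < t ∧ D.LocGe (itPos θ ⟨u0, lam⟩ l t) a v) ∧ a ≠ v) ∧
      a ∈ D.W ∧ t < (θ.length : ℝ)) u0 l := by
  have h1 : frAll (fun a t v => D.LocGe (itPos θ ⟨u0, lam⟩ l t) a v) u0 l := by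
    apply c2v3_frAll_of_itAll θ l ⟨u0, lam⟩
    refine itAll_mono θ ?_ _ _ (itAll_and θ _ _ h.adm.adm (itAll_pos θ ⟨u0, lam⟩ l h.adm.sorted))
    rintro S t v ⟨g1, g2⟩ g hg hc
    exact g1 g hg (by rw [g2]; exact hc)
  have h2 : frAll (fun _ t v => v ∈ D.W ∧ 0 < t ∧ t < (θ.length : ℝ)) u0 l :=
    c2v3_frAll_of_forall u0 l fun _ p hp =>
      ⟨h.adm.fr_mem p hp, (h.nf.interior p hp).1, (h.nf.interior p hp).2⟩
  have h3 := D.c2v3_frAll_memW l u0 h.adm.u0_mem h.adm.fr_mem
  have h4 := c2v3_frAll_ne l u0 h.nf.nonzero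
  refine c2v3_frAll_mono ?_ _ _ (c2v3_frAll_and _ _ (c2v3_frAll_and _ _ h1 h2)
    (c2v3_frAll_and _ _ h3 h4))
  rintro a t v ⟨⟨g1, g2, g3, g4⟩, g5, g6⟩
  exact ⟨⟨⟨g2, g3, g1⟩, g6⟩, g5, g4⟩

end RDatum

end Claimed.Agent.R282
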