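import Claimed.Agent.R282.S2C.P.Area
import Claimed.Agent.R282.S2C.B.Ge
import Claimed.Agent.R282.S2C.B.Stab

/-!
# 2C / L-V0a: the pointwise inequality of the variation principle
(replaces first and second variation of the area)

A variation is a TAGGED list `fs` of entries `(σ, t, h)`: the jump to the frame `h` has home time `σ`
(a site of the maximiser) and actual time `t`.  `fs.home` describes the old path, `fs.act` the new one.
`itPos_tag`:  `y_t(x) = y_σ(x) + z(x) + ∑_i (h_i - h_{i-1}) D_i(x)`, `D_i(x)` dominant, `= 0` unless `x`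
lies between `σ_i` and `t_i`.

* `window_ineq`: let `q = y_σ(x) + z(x)`, `g ∈ W` with `g q ∈ Cham`.
  `phi q = ρ·(g q) = (g⁻¹ρ)·q` (`phi_eq`, `dot_inv`), `phi (y_t x) ≥ (g⁻¹ρ)·y_t(x)` (`phi_ge`), and
  `(g⁻¹ρ)·((h_i - h_{i-1}) D_i) = ρ·((g h_i) D_i) - ρ·((g h_{i-1}) D_i) ≥ 0` by `ge_dot_le`.
* `window_strict`: same, one term is `> 0` by `ge_dot_lt` (`val_sub_reg`).
-/

set_option autoImplicit false

namespace Claimed.Agent.R282

variable {n : ℕ}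

theorem tagAll_mono {P Q : Fr n → ℝ × ℝ × Fr n → Prop} (h : ∀ a e, P a e → Q a e) :
    ∀ (a : Fr n) (fs : TagL n), tagAll P a fs → tagAll Q a fs
  | _, [], _ => trivial
  | _, e :: fs, hP => ⟨h _ e hP.1, tagAll_mono h e.2.2 fs hP.2⟩

theorem tagAll_and {P Q : Fr n → ℝ × ℝ × Fr n → Prop} :
    ∀ (a : Fr n) (fs : TagL n), tagAll P a fs → tagAll Q a fs →
      tagAll (fun a e => P a e ∧ Q a e) a fs
  | _, [], _, _ => trivial
  | _, e :: fs, hP, hQ => ⟨⟨hP.1, hQ.1⟩, tagAll_and e.2.2 fs hP.2 hQ.2⟩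

theorem tagAll_of_forall {P : Fr n → ℝ × ℝ × Fr n → Prop} :
    ∀ (a : Fr n) (fs : TagL n), (∀ b, ∀ e ∈ fs, P b e) → tagAll P a fs
  | _, [], _ => trivial
  | _, e :: fs, h => ⟨h _ e (List.mem_cons_self ..),
      tagAll_of_forall e.2.2 fs fun b e' he' => h b e' (List.mem_cons_of_mem _ he')⟩

namespace RDatum

variable (D : RDatum n)

/-- the vector `D_i(x)` of one entry -/
noncomputable def c2v_D (θ : Shape n) (e : ℝ × ℝ × Fr n) (x : ℝ) : Vec n :=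
  θ.val (if e.1 < x then e.2.1 else x) - θ.val (min x e.2.1)

theorem c2v_D_zero (θ : Shape n) (e : ℝ × ℝ × Fr n) (x : ℝ)
    (h : ¬ (min e.1 e.2.1 < x ∧ x ≤ max e.1 e.2.1)) : c2v_D θ e x = 0 := by
  unfold c2v_D
  by_cases h1 : e.1 < x
  · rw [if_pos h1]
    by_cases h2 : e.2.1 ≤ x
    · rw [min_eq_right h2, sub_self]
    · exfalso
      apply h
      exact ⟨lt_of_le_of_lt (min_le_left _ _) h1, le_trans (le_of_lt (not_le.1 h2)) (le_max_right _ _)⟩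
  · rw [if_neg h1]
    by_cases h2 : x ≤ e.2.1
    · rw [min_eq_left h2, sub_self]
    · exfalso
      apply h
      exact ⟨lt_of_le_of_lt (min_le_right _ _) (not_le.1 h2), le_trans (not_lt.1 h1) (le_max_left _ _)⟩

theorem c2v_D_cham {θ : Shape n} (hθ : ∀ v ∈ θ, D.Cham v) (e : ℝ × ℝ × Fr n) (x : ℝ) :
    D.Cham (c2v_D θ e x) := by
  unfold c2v_D
  by_cases h1 : e.1 < x
  · rw [if_pos h1]
    exact D.val_sub_cham hθ (min_le_right _ _)
  · rw [if_neg h1]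
    exact D.val_sub_cham hθ (min_le_left _ _)

theorem c2v_D_reg {θ : Shape n} (hθ : ∀ v ∈ θ, D.Reg v) (e : ℝ × ℝ × Fr n) (x : ℝ)
    (hmem : (0 ≤ e.1 ∧ e.1 ≤ (θ.length : ℝ)) ∧ 0 ≤ e.2.1 ∧ e.2.1 ≤ (θ.length : ℝ))
    (h : min e.1 e.2.1 < x ∧ x < max e.1 e.2.1) : D.Reg (c2v_D θ e x) := by
  unfold c2v_D
  obtain ⟨⟨a1, a2⟩, a3, a4⟩ := hmem
  by_cases h1 : e.1 < x
  · rw [if_pos h1]
    have h2 : x < e.2.1 := by
      rcases lt_max_iff.1 h.2 with h3 | h3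
      · exact absurd h3 (not_lt.2 h1.le)
      · exact h3
    rw [min_eq_left h2.le]
    exact D.val_sub_reg hθ (a1.trans h1.le) h2 a4
  · rw [if_neg h1]
    have h2 : e.2.1 < x := by
      rcases min_lt_iff.1 h.1 with h3 | h3
      · exact absurd h3 h1
      · exact h3
    rw [min_eq_right h2.le]
    exact D.val_sub_reg hθ a3 h2 ((not_lt.1 h1).trans a2)

theorem c2v_tagRest_cons (θ : Shape n) (a : Fr n) (e : ℝ × ℝ × Fr n) (fs : TagL n) (x : ℝ) :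
    tagRest θ a (e :: fs) x = (e.2.2 (c2v_D θ e x) - a (c2v_D θ e x)) + tagRest θ e.2.2 fs x := rfl

/-- one term is nonnegative -/
theorem c2v_term_nonneg {θ : Shape n} (hθ : ∀ v ∈ θ, D.Cham v) {g a : Fr n} (hg : g ∈ D.W)
    (ha : a ∈ D.W) (e : ℝ × ℝ × Fr n) (x : ℝ)
    (h : (min e.1 e.2.1 < x ∧ x ≤ max e.1 e.2.1) → D.Ge (g * a) (g * e.2.2)) :
    0 ≤ dot D.rho (g (e.2.2 (c2v_D θ e x) - a (c2v_D θ e x))) := by
  by_cases hw : min e.1 e.2.1 < x ∧ x ≤ max e.1 e.2.1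
  · have := D.ge_dot_le (D.W.mul_mem hg ha) (h hw) (D.c2v_D_cham hθ e x) D.rho_reg'.cham
    rw [map_sub, dot_sub_right]
    simpa using this
  · rw [c2v_D_zero θ e x hw]
    simp [dot_zero_right]

theorem c2v_rest_nonneg {θ : Shape n} (hθ : ∀ v ∈ θ, D.Cham v) {g : Fr n} (hg : g ∈ D.W) (x : ℝ) :
    ∀ (a : Fr n) (fs : TagL n), a ∈ D.W → (∀ e ∈ fs, e.2.2 ∈ D.W) →
      tagAll (fun a e => (min e.1 e.2.1 < x ∧ x ≤ max e.1 e.2.1) → D.Ge (g * a) (g * e.2.2)) a fs →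
      0 ≤ dot D.rho (g (tagRest θ a fs x))
  | _, [], _, _, _ => by simp [tagRest, dot_zero_right]
  | a, e :: fs, ha, hW, hl => by
      rw [c2v_tagRest_cons, map_add, dot_add_right]
      have h1 := D.c2v_term_nonneg hθ hg ha e x hl.1
      have h2 := c2v_rest_nonneg hθ hg x e.2.2 fs (hW e (List.mem_cons_self ..))
        (fun e' he' => hW e' (List.mem_cons_of_mem _ he')) hl.2
      linarith

theorem c2v_rest_pos {θ : Shape n} (hθ : ∀ v ∈ θ, D.Reg v) {g : Fr n} (hg : g ∈ D.W) (x : ℝ) :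
    ∀ (a : Fr n) (fs : TagL n), a ∈ D.W → (∀ e ∈ fs, e.2.2 ∈ D.W) →
      (∀ e ∈ fs, (0 ≤ e.1 ∧ e.1 ≤ (θ.length : ℝ)) ∧ 0 ≤ e.2.1 ∧ e.2.1 ≤ (θ.length : ℝ)) →
      tagAll (fun a e => (min e.1 e.2.1 < x ∧ x ≤ max e.1 e.2.1) → D.Ge (g * a) (g * e.2.2)) a fs →
      tagAny (fun a e => a ≠ e.2.2 ∧ min e.1 e.2.1 < x ∧ x < max e.1 e.2.1) a fs →
      0 < dot D.rho (g (tagRest θ a fs x))
  | _, [], _, _, _, _, hm => hm.elim
  | a, e :: fs, ha, hW, hmem, hl, hm => by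
      have hθ' : ∀ v ∈ θ, D.Cham v := fun v hv => (hθ v hv).cham
      rw [c2v_tagRest_cons, map_add, dot_add_right]
      have hW' : ∀ e' ∈ fs, e'.2.2 ∈ D.W := fun e' he' => hW e' (List.mem_cons_of_mem _ he')
      have he : e.2.2 ∈ D.W := hW e (List.mem_cons_self ..)
      rcases hm with hm | hm
      · have h2 := D.c2v_rest_nonneg hθ' hg x e.2.2 fs he hW' hl.2
        have hge := hl.1 ⟨hm.2.1, hm.2.2.le⟩
        have hne : g * a ≠ g * e.2.2 := fun h => hm.1 (mul_left_cancel h)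
        have h1 := D.ge_dot_lt (D.W.mul_mem hg ha) hge hne
          (D.c2v_D_reg hθ e x (hmem e (List.mem_cons_self ..)) hm.2) D.rho_reg'
        have h3 : 0 < dot D.rho (g (e.2.2 (c2v_D θ e x) - a (c2v_D θ e x))) := by
          rw [map_sub, dot_sub_right]
          simpa using h1
        linarith
      · have h1 := D.c2v_term_nonneg hθ' hg ha e x hl.1
        have h2 := c2v_rest_pos hθ hg x e.2.2 fs he hW'
          (fun e' he' => hmem e' (List.mem_cons_of_mem _ he')) hl.2 hm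
        linarith

/-- common part of the two inequalities -/
theorem c2v_phi_lower {θ : Shape n} {u0 : Fr n} (c : Vec n) (fs : TagL n)
    (hσ : fs.home.Pairwise (fun p q => p.1 ≤ q.1)) (ht : fs.act.Pairwise (fun p q => p.1 ≤ q.1))
    (x : ℝ) {g : Fr n} (hg : g ∈ D.W)
    (hc : D.Cham (g (itPos θ ⟨u0, c⟩ fs.home x + zOf θ u0 fs x))) :
    D.phi (itPos θ ⟨u0, c⟩ fs.home x + zOf θ u0 fs x) + dot D.rho (g (tagRest θ u0 fs x)) ≤
      D.phi (itPos θ ⟨u0, c⟩ fs.act x) := by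
  have h1 := D.phi_eq hg hc
  have h2 := D.phi_ge (itPos θ ⟨u0, c⟩ fs.act x) (D.W.inv_mem hg)
  rw [D.dot_inv (D.W.inv_mem hg), inv_inv, itPos_tag θ u0 c fs hσ ht x, map_add,
    dot_add_right] at h2
  rw [h1, itPos_tag θ u0 c fs hσ ht x]
  exact h2

/-- (L-V0a) -/
theorem window_ineq {θ : Shape n} (hθ : ∀ v ∈ θ, D.Cham v) {u0 : Fr n} (hu0 : u0 ∈ D.W)
    (c : Vec n) (fs : TagL n) (hW : ∀ e ∈ fs, e.2.2 ∈ D.W)
    (hσ : fs.home.Pairwise (fun p q => p.1 ≤ q.1)) (ht : fs.act.Pairwise (fun p q => p.1 ≤ q.1))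
    (x : ℝ)
    (hloc : tagAll (fun a e => (min e.1 e.2.1 < x ∧ x ≤ max e.1 e.2.1) → ∀ g ∈ D.W,
      D.Cham (g (itPos θ ⟨u0, c⟩ fs.home x + zOf θ u0 fs x)) → D.Ge (g * a) (g * e.2.2)) u0 fs) :
    D.phi (itPos θ ⟨u0, c⟩ fs.home x + zOf θ u0 fs x) ≤ D.phi (itPos θ ⟨u0, c⟩ fs.act x) := by
  obtain ⟨g, hg, hc⟩ := D.exists_cham (itPos θ ⟨u0, c⟩ fs.home x + zOf θ u0 fs x)
  have h1 := D.c2v_phi_lower c fs hσ ht x hg hc
  have h2 := D.c2v_rest_nonneg hθ hg x u0 fs hu0 hW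
    (tagAll_mono (fun a e h hw => h hw g hg hc) u0 fs hloc)
  linarith

/-- (L-V0b) -/
theorem window_strict {θ : Shape n} (hθ : ∀ v ∈ θ, D.Reg v) {u0 : Fr n} (hu0 : u0 ∈ D.W)
    (c : Vec n) (fs : TagL n) (hW : ∀ e ∈ fs, e.2.2 ∈ D.W)
    (hσ : fs.home.Pairwise (fun p q => p.1 ≤ q.1)) (ht : fs.act.Pairwise (fun p q => p.1 ≤ q.1))
    (hmem : ∀ e ∈ fs, (0 ≤ e.1 ∧ e.1 ≤ (θ.length : ℝ)) ∧ 0 ≤ e.2.1 ∧ e.2.1 ≤ (θ.length : ℝ))
    (x : ℝ)
    (hloc : tagAll (fun a e => (min e.1 e.2.1 < x ∧ x ≤ max e.1 e.2.1) → ∀ g ∈ D.W,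
      D.Cham (g (itPos θ ⟨u0, c⟩ fs.home x + zOf θ u0 fs x)) → D.Ge (g * a) (g * e.2.2)) u0 fs)
    (hmove : tagAny (fun a e => a ≠ e.2.2 ∧ min e.1 e.2.1 < x ∧ x < max e.1 e.2.1) u0 fs) :
    D.phi (itPos θ ⟨u0, c⟩ fs.home x + zOf θ u0 fs x) < D.phi (itPos θ ⟨u0, c⟩ fs.act x) := by
  obtain ⟨g, hg, hc⟩ := D.exists_cham (itPos θ ⟨u0, c⟩ fs.home x + zOf θ u0 fs x)
  have h1 := D.c2v_phi_lower c fs hσ ht x hg hc
  have h2 := D.c2v_rest_pos hθ hg x u0 fs hu0 hW hmem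
    (tagAll_mono (fun a e h hw => h hw g hg hc) u0 fs hloc) hmove
  linarith

end RDatum

end Claimed.Agent.R282
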